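import Vale.Agent.P095.Lossy.Pins

/-!
# P095: transfer of the matrix inequality to algebras with the approximation property

Let `ψ ∘ ρ` almost fix the products `star (x i) * x j` and `1`. The images `R i j` of the products
form a positive block matrix below `c` times the diagonal of `R₀ = ρ 1`, and the sum of its diagonal
blocks is below `R₀`. After compression by the inverse square root of `b = R₀ + t` it is a Gram
matrix of matrices `z i`, to which `MatStmt` applies. The resulting two-sided bound by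
`1 ⊗ b` is mapped by the amplification of `ψ` to one by `1 ⊗ ψ b`, whose norm is almost one.
-/

open scoped Kronecker Matrix.Norms.L2Operator

namespace Vale.P095.Lossy

open Matrix Vale.P095.SI

noncomputable section

/-- Being a square, stated without an order on matrices. -/
def Sq {n : Type*} [Fintype n] (X : Matrix n n ℂ) : Prop :=
  ∃ W : Matrix n n ℂ, X = Wᴴ * W

theorem Sq.conj {n : Type*} [Fintype n] {X : Matrix n n ℂ} (h : Sq X) (C : Matrix n n ℂ) :
    Sq (Cᴴ * X * C) := by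
  obtain ⟨W, rfl⟩ := h
  exact ⟨W * C, by rw [conjTranspose_mul]; simp only [Matrix.mul_assoc]⟩

/-- The sum of `g i j ⊗ S i j`. -/
def tensSum {d N m : ℕ} (g : Fin m → Fin m → Matrix (Fin d) (Fin d) ℂ)
    (S : Fin m → Fin m → Matrix (Fin N) (Fin N) ℂ) :
    Matrix (Fin d × Fin N) (Fin d × Fin N) ℂ :=
  ∑ i, ∑ j, g i j ⊗ₖ S i j

/-- The block matrix of a family of matrices. -/
def blockM {N m : ℕ} (R : Fin m → Fin m → Matrix (Fin N) (Fin N) ℂ) :
    Matrix (Fin m × Fin N) (Fin m × Fin N) ℂ :=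
  Matrix.of fun p q => R p.1 q.1 p.2 q.2

/-! ### The matrix side -/

section Mat

open scoped ComplexOrder MatrixOrder

theorem Sq.posSemidef {n : Type*} [Fintype n] {X : Matrix n n ℂ} (h : Sq X) : X.PosSemidef := by
  obtain ⟨W, rfl⟩ := h
  exact posSemidef_conjTranspose_mul_self W

theorem sq_of_posSemidef {n : Type*} [Fintype n] [DecidableEq n] {X : Matrix n n ℂ}
    (h : X.PosSemidef) : Sq X := by
  obtain ⟨W, hW⟩ := CStarAlgebra.nonneg_iff_eq_star_mul_self.mp h.nonneg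
  exact ⟨W, hW⟩

theorem mat_transfer (hM : MatStmt) {N m : ℕ} (R : Fin m → Fin m → Matrix (Fin N) (Fin N) ℂ)
    (R₀ : Matrix (Fin N) (Fin N) ℂ) {c : ℝ} {k q : ℕ} (hk : 0 < k) (hq : 0 < q) (hc : 0 ≤ c)
    (hck : c * k ≤ q) (h0 : Sq R₀) (h1 : Sq (R₀ - ∑ i, R i i)) (hP : Sq (blockM R))
    (hPc : Sq ((c : ℂ) • ((1 : Matrix (Fin m) (Fin m) ℂ) ⊗ₖ R₀) - blockM R)) {t : ℝ} (ht : 0 < t) :
    ∃ (D d : ℕ) (G : Fin m → Matrix (Fin (q * D)) (Fin d) ℂ), 0 < D ∧ k * D ≤ 2 * d ∧
      (∀ i, ‖G i‖ ≤ k) ∧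
      Sq (((8 * √(c * k / q) : ℝ) : ℂ) • ((1 : Matrix (Fin d) (Fin d) ℂ) ⊗ₖ (R₀ + (t : ℂ) • 1))
        + tensSum (gramDefect G) R) ∧
      Sq (((8 * √(c * k / q) : ℝ) : ℂ) • ((1 : Matrix (Fin d) (Fin d) ℂ) ⊗ₖ (R₀ + (t : ℂ) • 1))
        - tensSum (gramDefect G) R) := by
  set b := R₀ + (t : ℂ) • (1 : Matrix (Fin N) (Fin N) ℂ) with hb
  have htC : (0 : ℂ) < t := by exact_mod_cast ht
  have hbpd : b.PosDef := PosDef.posSemidef_add h0.posSemidef (PosDef.one.smul htC)
  set s := CFC.sqrt b with hs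
  have hs2 : s * s = b := CFC.sqrt_mul_sqrt_self b hbpd.posSemidef.nonneg
  have hsH : sᴴ = s := (CFC.sqrt_nonneg b).isSelfAdjoint
  have hsu : IsUnit s.det := (Matrix.isUnit_iff_isUnit_det s).1
    ((CFC.isUnit_sqrt_iff b hbpd.posSemidef.nonneg).2 hbpd.isUnit)
  set si := s⁻¹ with hsi
  have hl : si * s = 1 := nonsing_inv_mul s hsu
  have hr : s * si = 1 := mul_nonsing_inv s hsu
  have hsiH : siᴴ = si := by rw [hsi, conjTranspose_nonsing_inv, hsH]
  have hbi : si * b * si = 1 := by rw [← hs2, ← mul_assoc, hl, one_mul, hr]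
  obtain ⟨W, hW⟩ := hP
  set Wr := W.submatrix (finProdFinEquiv (m := m) (n := N)).symm id with hWr
  have hWW : Wrᴴ * Wr = blockM R := by
    rw [hW, hWr, conjTranspose_submatrix, submatrix_mul_equiv, submatrix_id_id]
  set z : Fin m → Matrix (Fin (m * N)) (Fin N) ℂ :=
    fun i => Wr.submatrix id (Prod.mk i) * si with hz
  have hzz : ∀ i j, (z i)ᴴ * z j = si * R i j * si := fun i j => by
    have : (Wr.submatrix id (Prod.mk i))ᴴ * Wr.submatrix id (Prod.mk j) = R i j := by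
      rw [conjTranspose_submatrix, ← submatrix_mul _ _ _ id _ Function.bijective_id, hWW]
      rfl
    simp only [hz, conjTranspose_mul, hsiH]
    rw [← this]
    simp only [Matrix.mul_assoc]
  have hz1 : ‖∑ i, (z i)ᴴ * z i‖ ≤ 1 := by
    have hnn : 0 ≤ ∑ i, (z i)ᴴ * z i :=
      Finset.sum_nonneg fun i _ => (posSemidef_conjTranspose_mul_self (z i)).nonneg
    rw [CStarAlgebra.norm_le_one_iff_of_nonneg _ hnn, ← sub_nonneg]
    have h2 : (b - ∑ i, R i i).PosSemidef := by
      have := h1.posSemidef.add (PosSemidef.one.smul htC.le)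
      rwa [sub_add_eq_add_sub] at this
    have h3 := h2.conjTranspose_mul_mul_same si
    rw [hsiH, mul_sub, sub_mul, hbi, Finset.mul_sum, Finset.sum_mul] at h3
    simpa only [hzz] using h3.nonneg
  have hzc : ‖∑ i, z i * (z i)ᴴ‖ ≤ c := by
    set Zr := Wr * ((1 : Matrix (Fin m) (Fin m) ℂ) ⊗ₖ si) with hZr
    have hZe : ∀ p i a, Zr p (i, a) = z i p a := fun p i a => by
      simp [hZr, hz, Matrix.mul_apply, Fintype.sum_prod_type, Matrix.one_apply, ite_mul, mul_ite]
    have hsum : ∑ i, z i * (z i)ᴴ = Zr * Zrᴴ := by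
      ext p p'
      simp [Matrix.sum_apply, Matrix.mul_apply, Fintype.sum_prod_type, hZe]
    have hswap : ‖Zr * Zrᴴ‖ = ‖Zrᴴ * Zr‖ := by
      rw [l2_opNorm_conjTranspose_mul_self, ← l2_opNorm_conjTranspose Zr,
        ← l2_opNorm_conjTranspose_mul_self, conjTranspose_conjTranspose]
    rw [hsum, hswap, CStarAlgebra.norm_le_iff_le_algebraMap _ hc
      (posSemidef_conjTranspose_mul_self Zr).nonneg, ← sub_nonneg]
    have h2 : ((c : ℂ) • ((1 : Matrix (Fin m) (Fin m) ℂ) ⊗ₖ b) - blockM R).PosSemidef := by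
      have := hPc.posSemidef.add
        ((PosSemidef.one (n := Fin m × Fin N) (R := ℂ)).smul
          (show (0 : ℂ) ≤ (c : ℂ) * t by exact_mod_cast mul_nonneg hc ht.le))
      convert this using 1
      rw [hb, kronecker_add, kronecker_smul, one_kronecker_one, smul_add, smul_smul]
      abel
    have hCH : ((1 : Matrix (Fin m) (Fin m) ℂ) ⊗ₖ si)ᴴ = 1 ⊗ₖ si := by
      rw [conjTranspose_kronecker, conjTranspose_one, hsiH]
    have h3 := h2.conjTranspose_mul_mul_same ((1 : Matrix (Fin m) (Fin m) ℂ) ⊗ₖ si)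
    convert h3.nonneg using 1
    rw [hZr, conjTranspose_mul, hCH, mul_sub, sub_mul, mul_smul_comm, smul_mul_assoc,
      ← mul_kronecker_mul, ← mul_kronecker_mul, one_mul, one_mul, hbi, one_kronecker_one,
      Algebra.algebraMap_eq_smul_one, Complex.coe_smul, ← hWW]
    simp only [Matrix.mul_assoc]
  obtain ⟨D, d, G, hD, hd, hG, hMn⟩ := hM N (m * N) m z c k q hk hq hc hck hz1 hzc
  refine ⟨D, d, G, hD, hd, hG, ?_⟩
  set B : ℝ := 8 * √(c * k / q)
  set M := tensSum (gramDefect G) fun i j => (z i)ᴴ * z j with hMdef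
  have hgH : ∀ i j, (gramDefect G i j)ᴴ = gramDefect G j i := fun i j => by
    rcases eq_or_ne i j with h | h <;>
      simp [gramDefect, h, Ne.symm, conjTranspose_sub, conjTranspose_mul]
  have hMsa : IsSelfAdjoint M := by
    change Mᴴ = M
    simp only [hMdef, tensSum, conjTranspose_sum, conjTranspose_kronecker, hgH, conjTranspose_mul,
      conjTranspose_conjTranspose]
    exact Finset.sum_comm
  set C := (1 : Matrix (Fin d) (Fin d) ℂ) ⊗ₖ s with hC
  have hCH : Cᴴ = C := by rw [hC, conjTranspose_kronecker, conjTranspose_one, hsH]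
  have hR : ∀ i j, s * ((z i)ᴴ * z j) * s = R i j := fun i j => by
    rw [hzz, ← mul_assoc, ← mul_assoc, hr, one_mul, mul_assoc, hl, mul_one]
  have hCM : C * M * C = tensSum (gramDefect G) R := by
    simp only [hMdef, tensSum, Finset.mul_sum, Finset.sum_mul, hC, ← mul_kronecker_mul, one_mul,
      mul_one, hR]
  have key : ∀ X : Matrix (Fin d × Fin N) (Fin d × Fin N) ℂ, IsSelfAdjoint X → ‖X‖ ≤ B →
      Sq ((B : ℂ) • ((1 : Matrix (Fin d) (Fin d) ℂ) ⊗ₖ b) - C * X * C) := fun X hX hXB => by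
    have h2 : 0 ≤ algebraMap ℝ _ B - X := sub_nonneg.2
      (hX.le_algebraMap_norm_self.trans (algebraMap_mono _ hXB))
    have h3 := (sq_of_posSemidef h2.posSemidef).conj C
    rw [hCH, mul_sub, sub_mul, Algebra.algebraMap_eq_smul_one, ← Complex.coe_smul, mul_smul_comm,
      mul_one, smul_mul_assoc] at h3
    simp only [hC, ← mul_kronecker_mul, one_mul, hs2] at h3
    exact h3
  have hMB : ‖M‖ ≤ B := hMn
  refine ⟨?_, hCM ▸ key M hMsa hMB⟩
  have := key (-M) hMsa.neg (by rwa [norm_neg])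
  rwa [mul_neg, neg_mul, sub_neg_eq_add, hCM] at this

end Mat

/-! ### The algebra side -/

variable {A : Type*} [CStarAlgebra A]

attribute [local instance] CStarAlgebra.spectralOrder CStarAlgebra.spectralOrderedRing

theorem norm_one_le_one : ‖(1 : A)‖ ≤ 1 := by
  rcases subsingleton_or_nontrivial A with h | h
  · simp [Subsingleton.elim (1 : A) 0]
  · exact norm_one.le

theorem norm_le_of_neg_le_le {B : Type*} [CStarAlgebra B] [PartialOrder B] [StarOrderedRing B]
    {S : B} (hS : IsSelfAdjoint S) {r : ℝ} (hr : 0 ≤ r) (h1 : -algebraMap ℝ B r ≤ S)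
    (h2 : S ≤ algebraMap ℝ B r) : ‖S‖ ≤ r := by
  rw [← map_neg] at h1
  conv_lhs => rw [← cfc_id ℝ S]
  exact norm_cfc_le hr fun x hx => abs_le.2
    ⟨(algebraMap_le_iff_le_spectrum (a := S)).1 h1 x hx,
      (le_algebraMap_iff_spectrum_le (a := S)).1 h2 x hx⟩

variable {d : ℕ}

@[local simp]
theorem ofMatrix_fun_apply {m n α : Type*} (f : m → n → α) (i : m) (j : n) :
    CStarMatrix.ofMatrix f i j = f i j := rfl

theorem sum_entry {ι m n α : Type*} [AddCommMonoid α] (u : Finset ι) (f : ι → CStarMatrix m n α)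
    (i : m) (j : n) : (∑ l ∈ u, f l) i j = ∑ l ∈ u, f l i j :=
  Matrix.sum_apply i j u f

/-- Scalar matrices inside the matrices over `A`. -/
def scalHom : Matrix (Fin d) (Fin d) ℂ →⋆ₐ[ℂ] CStarMatrix (Fin d) (Fin d) A where
  toFun g := CStarMatrix.ofMatrix fun s t => algebraMap ℂ A (g s t)
  map_one' := by ext s t; simp [Matrix.one_apply, CStarMatrix.one_apply, apply_ite (algebraMap ℂ A)]
  map_mul' g h := by ext s t; simp [Matrix.mul_apply, CStarMatrix.mul_apply, map_sum]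
  map_zero' := by ext s t; simp
  map_add' g h := by ext s t; simp
  commutes' r := by
    ext s t
    simp [Matrix.algebraMap_matrix_apply, CStarMatrix.algebraMap_apply,
      apply_ite (algebraMap ℂ A)]
  map_star' g := by
    ext s t
    simpa [CStarMatrix.star_apply] using algebraMap_star_comm (g t s)

/-- Diagonal matrices with a constant entry. -/
def diagHom : A →⋆ₐ[ℂ] CStarMatrix (Fin d) (Fin d) A where
  toFun a := CStarMatrix.ofMatrix fun s t => if s = t then a else 0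
  map_one' := by ext s t; simp [CStarMatrix.one_apply]
  map_mul' a b := by ext s t; simp [CStarMatrix.mul_apply, ite_mul, mul_ite]
  map_zero' := by ext s t; simp
  map_add' a b := by ext s t; by_cases h : s = t <;> simp [h]
  commutes' r := by ext s t; simp [CStarMatrix.algebraMap_apply]
  map_star' a := by
    ext s t
    rcases eq_or_ne s t with h | h <;> simp [CStarMatrix.star_apply, h, Ne.symm]

theorem norm_smul_entries_le (g : Matrix (Fin d) (Fin d) ℂ) (e : A) :
    ‖CStarMatrix.ofMatrix fun s t => g s t • e‖ ≤ ‖g‖ * ‖e‖ := by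
  have h : (CStarMatrix.ofMatrix fun s t => g s t • e) = scalHom (A := A) g * diagHom e := by
    ext s t
    simp [scalHom, diagHom, CStarMatrix.mul_apply, Algebra.smul_def]
  rw [h]
  exact (norm_mul_le _ _).trans (mul_le_mul (NonUnitalStarAlgHom.norm_apply_le scalHom g)
    (NonUnitalStarAlgHom.norm_apply_le diagHom e) (norm_nonneg _) (norm_nonneg _))

variable {N : ℕ}

/-- A matrix over matrices as a matrix. -/
def flat {k : ℕ} (Q : CStarMatrix (Fin k) (Fin k) (CStarMatrix (Fin N) (Fin N) ℂ)) :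
    Matrix (Fin k × Fin N) (Fin k × Fin N) ℂ :=
  Matrix.of fun p q => Q p.1 q.1 p.2 q.2

theorem sq_flat {ρ : A →ₗ[ℂ] CStarMatrix (Fin N) (Fin N) ℂ} (hρ : IsCP ρ) {k : ℕ}
    (Y : CStarMatrix (Fin k) (Fin k) A) : Sq (flat ((star Y * Y).map ρ)) := by
  obtain ⟨Z, hZ⟩ := hρ k Y
  refine ⟨Matrix.of fun r p => Z r.1 p.1 r.2 p.2, ?_⟩
  ext p q
  simp only [flat, hZ, Matrix.of_apply, Matrix.mul_apply, Matrix.conjTranspose_apply,
    Fintype.sum_prod_type, CStarMatrix.mul_apply, CStarMatrix.star_apply]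
  simp [sum_entry, CStarMatrix.mul_apply, CStarMatrix.star_apply]

theorem sq_of_star_mul_self {ρ : A →ₗ[ℂ] CStarMatrix (Fin N) (Fin N) ℂ} (hρ : IsCP ρ) (y : A) :
    Sq (CStarMatrix.ofMatrix.symm (ρ (star y * y))) := by
  obtain ⟨Z, hZ⟩ := hρ 1 (CStarMatrix.ofMatrix fun _ _ => y)
  refine ⟨CStarMatrix.ofMatrix.symm (Z 0 0), ?_⟩
  have := congrFun (congrFun hZ 0) 0
  simp [CStarMatrix.mul_apply, CStarMatrix.star_apply] at this
  rw [this]
  rfl

/-- The amplification of `ψ`, read on matrices. -/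
def lift (ψ : CStarMatrix (Fin N) (Fin N) ℂ →ₗ[ℂ] A) :
    Matrix (Fin d × Fin N) (Fin d × Fin N) ℂ →ₗ[ℂ] CStarMatrix (Fin d) (Fin d) A where
  toFun T := CStarMatrix.ofMatrix fun s t =>
    ψ (CStarMatrix.ofMatrix (Matrix.of fun a b => T (s, a) (t, b)))
  map_add' T T' := by
    ext s t
    exact map_add ψ (CStarMatrix.ofMatrix (Matrix.of fun a b => T (s, a) (t, b)))
      (CStarMatrix.ofMatrix (Matrix.of fun a b => T' (s, a) (t, b)))
  map_smul' r T := by
    ext s t
    exact map_smul ψ r (CStarMatrix.ofMatrix (Matrix.of fun a b => T (s, a) (t, b)))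

theorem lift_kronecker (ψ : CStarMatrix (Fin N) (Fin N) ℂ →ₗ[ℂ] A)
    (g : Matrix (Fin d) (Fin d) ℂ) (R : Matrix (Fin N) (Fin N) ℂ) :
    lift ψ (g ⊗ₖ R)
      = CStarMatrix.ofMatrix fun s t => g s t • ψ (CStarMatrix.ofMatrix R) := by
  ext s t
  exact map_smul ψ (g s t) (CStarMatrix.ofMatrix R)

theorem lift_nonneg {ψ : CStarMatrix (Fin N) (Fin N) ℂ →ₗ[ℂ] A} (hψ : IsCP ψ)
    {X : Matrix (Fin d × Fin N) (Fin d × Fin N) ℂ} (hX : Sq X) : 0 ≤ lift ψ X := by
  obtain ⟨W, rfl⟩ := hX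
  obtain ⟨Z, hZ⟩ := hψ d (CStarMatrix.ofMatrix fun s p =>
    CStarMatrix.ofMatrix (Matrix.of fun l a => W (s, l) (p, a)))
  refine le_of_le_of_eq (star_mul_self_nonneg Z) (hZ.symm.trans ?_)
  ext s t
  refine congrArg ψ ?_
  ext a b
  simp only [CStarMatrix.mul_apply, CStarMatrix.star_apply, CStarMatrix.ofMatrix_apply,
    Matrix.of_apply, Matrix.mul_apply, Matrix.conjTranspose_apply, Fintype.sum_prod_type]
  simp [sum_entry, CStarMatrix.mul_apply, CStarMatrix.star_apply]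

theorem norm_lift_le {ψ : CStarMatrix (Fin N) (Fin N) ℂ →ₗ[ℂ] A} (hψ : IsCP ψ) {B : ℝ}
    (hB : 0 ≤ B) (b : Matrix (Fin N) (Fin N) ℂ) {T : Matrix (Fin d × Fin N) (Fin d × Fin N) ℂ}
    (hp : Sq ((B : ℂ) • ((1 : Matrix (Fin d) (Fin d) ℂ) ⊗ₖ b) + T))
    (hm : Sq ((B : ℂ) • ((1 : Matrix (Fin d) (Fin d) ℂ) ⊗ₖ b) - T)) :
    ‖lift ψ T‖ ≤ B * ‖ψ (CStarMatrix.ofMatrix b)‖ := by
  have p1 := lift_nonneg hψ hp
  have m1 := lift_nonneg hψ hm
  rw [map_add, map_smul] at p1
  rw [map_sub, map_smul] at m1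
  set S := lift ψ T
  set e := ψ (CStarMatrix.ofMatrix b)
  set X := (B : ℂ) • lift ψ ((1 : Matrix (Fin d) (Fin d) ℂ) ⊗ₖ b)
  have he : lift ψ ((1 : Matrix (Fin d) (Fin d) ℂ) ⊗ₖ b) = diagHom e := by
    rw [lift_kronecker]
    ext s t
    simp [diagHom, e, Matrix.one_apply]
  have hXsa : IsSelfAdjoint X := by
    have h := (add_nonneg p1 m1).isSelfAdjoint
    rw [show X + S + (X - S) = (2 : ℝ) • X by rw [two_smul]; abel] at h
    simpa [smul_smul] using IsSelfAdjoint.smul (IsSelfAdjoint.all (2⁻¹ : ℝ)) h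
  have hSsa : IsSelfAdjoint S := by simpa using p1.isSelfAdjoint.sub hXsa
  have hXn : ‖X‖ ≤ B * ‖e‖ := by
    simp only [X, he, norm_smul, Complex.norm_real, Real.norm_eq_abs, abs_of_nonneg hB]
    exact mul_le_mul_of_nonneg_left (NonUnitalStarAlgHom.norm_apply_le diagHom e) hB
  have hX2 : X ≤ algebraMap ℝ _ ‖X‖ := hXsa.le_algebraMap_norm_self
  refine (norm_le_of_neg_le_le hSsa (norm_nonneg X) ?_ ?_).trans hXn
  · exact (neg_le_neg hX2).trans (neg_le_iff_add_nonneg'.2 p1)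
  · exact (sub_nonneg.1 m1).trans hX2

theorem star_mul_self_of_norm_le {B : Type*} [CStarAlgebra B] {P : B} (hP : ∃ Y, P = star Y * Y)
    {c : ℝ} (hc : ‖P‖ ≤ c) : ∃ W, star W * W = (c : ℂ) • (1 : B) - P := by
  let := CStarAlgebra.spectralOrder B
  have := CStarAlgebra.spectralOrderedRing B
  obtain ⟨Y, rfl⟩ := hP
  have h : star Y * Y ≤ algebraMap ℝ B c :=
    (IsSelfAdjoint.star_mul_self Y).le_algebraMap_norm_self.trans (algebraMap_mono _ hc)
  obtain ⟨W, hW⟩ := CStarAlgebra.nonneg_iff_eq_star_mul_self.mp (sub_nonneg.2 h)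
  exact ⟨W, by rw [← hW, Algebra.algebraMap_eq_smul_one, Complex.coe_smul]⟩

theorem exists_gram {m : ℕ} (x : Fin m → A) {c : ℝ}
    (hx : ‖∑ i, x i * star (x i)‖ ≤ c) : ∃ Y : CStarMatrix (Fin m) (Fin m) A,
      (∀ i j, (star Y * Y) i j = star (x i) * x j) ∧ ‖star Y * Y‖ ≤ c := by
  let g : Fin m → ℂ := fun s => if s.val = 0 then 1 else 0
  let Y : CStarMatrix (Fin m) (Fin m) A := CStarMatrix.ofMatrix fun s j => g s • x j
  refine ⟨Y, fun i j => ?_, ?_⟩
  · rw [CStarMatrix.mul_apply, Finset.sum_eq_single (⟨0, i.pos⟩ : Fin m)]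
    · simp [Y, g, CStarMatrix.star_apply]
    · intro l _ hl
      have : l.val ≠ 0 := fun h => hl (Fin.ext h)
      simp [Y, g, CStarMatrix.star_apply, this]
    · simp
  · rw [CStarRing.norm_star_mul_self, ← CStarRing.norm_self_mul_star]
    have h : Y * star Y = CStarMatrix.ofMatrix fun s t =>
        (vecMulVec g g) s t • ∑ i, x i * star (x i) := by
      ext s t
      by_cases hs : s.val = 0 <;> by_cases ht : t.val = 0 <;>
        simp [Y, g, hs, ht, CStarMatrix.mul_apply, CStarMatrix.star_apply, vecMulVec_apply]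
    rw [h]
    refine (norm_smul_entries_le _ _).trans ?_
    have hg : vecMulVec g g = diagonal g := by
      ext s t
      rcases eq_or_ne s t with rfl | hst
      · simp [g, vecMulVec_apply]
      · have : s.val ≠ t.val := fun h => hst (Fin.ext h)
        simp only [g, vecMulVec_apply, diagonal_apply_ne _ hst]
        split_ifs <;> simp_all
    have hg1 : ‖g‖ ≤ 1 := (pi_norm_le_iff_of_nonneg zero_le_one).2 fun s => by
      simp only [g]
      split_ifs <;> simp
    rw [hg, l2_opNorm_diagonal]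
    exact (mul_le_of_le_one_left (norm_nonneg _) hg1).trans hx

theorem norm_gramDefect_le {R m : ℕ} {G : Fin m → Matrix (Fin R) (Fin d) ℂ} {k : ℕ}
    (hG : ∀ i, ‖G i‖ ≤ k) (i j : Fin m) : ‖gramDefect G i j‖ ≤ (k : ℝ) ^ 2 + 1 := by
  refine (norm_sub_le _ _).trans (add_le_add ?_ ?_)
  · refine (l2_opNorm_mul _ _).trans ?_
    rw [l2_opNorm_conjTranspose, sq]
    exact mul_le_mul (hG i) (hG j) (norm_nonneg _) k.cast_nonneg
  · split_ifs
    · rw [← diagonal_one, l2_opNorm_diagonal]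
      exact (pi_norm_le_iff_of_nonneg zero_le_one).2 fun _ => by simp
    · simp

/-- The transfer to algebras with the approximation property. -/
theorem pull : PullStmt := by
  intro hM A _ hA m x c k q hk hq hc hck hx1 hx2 θ hθ
  classical
  set B : ℝ := 8 * √(c * k / q)
  have hB : 0 ≤ B := by positivity
  set ε : ℝ := θ / (2 * B + (m : ℝ) ^ 2 * ((k : ℝ) ^ 2 + 1) + 1) with hεdef
  have hε : 0 < ε := by positivity
  obtain ⟨N, ρ, ψ, hρ, hψ, happ⟩ := hA
    (insert 1 (Finset.univ.image fun p : Fin m × Fin m => star (x p.1) * x p.2)) ε hε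
  have happ1 : ‖ψ (ρ 1) - 1‖ ≤ ε := happ 1 (Finset.mem_insert_self _ _)
  have happ2 : ∀ i j, ‖ψ (ρ (star (x i) * x j)) - star (x i) * x j‖ ≤ ε := fun i j =>
    happ _ (Finset.mem_insert_of_mem (Finset.mem_image.2 ⟨(i, j), Finset.mem_univ _, rfl⟩))
  set R : Fin m → Fin m → Matrix (Fin N) (Fin N) ℂ :=
    fun i j => CStarMatrix.ofMatrix.symm (ρ (star (x i) * x j)) with hR
  set R₀ : Matrix (Fin N) (Fin N) ℂ := CStarMatrix.ofMatrix.symm (ρ 1) with hR₀
  have h0 : Sq R₀ := by simpa [hR₀] using sq_of_star_mul_self hρ 1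
  obtain ⟨y, hy⟩ := star_mul_self_of_norm_le (P := ∑ i, star (x i) * x i)
    (CStarAlgebra.nonneg_iff_eq_star_mul_self.mp
      (Finset.sum_nonneg fun i _ => star_mul_self_nonneg (x i))) hx1
  have h1 : Sq (R₀ - ∑ i, R i i) := by
    have := sq_of_star_mul_self hρ y
    rw [hy, Complex.ofReal_one, one_smul, map_sub, map_sum] at this
    exact this
  obtain ⟨Y, hY, hYn⟩ := exists_gram x hx2
  have hP : Sq (blockM R) := by
    convert sq_flat hρ Y using 1
    ext p p'
    simp [flat, blockM, hR, hY]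
  obtain ⟨W, hW⟩ := star_mul_self_of_norm_le ⟨Y, rfl⟩ hYn
  have hPc : Sq ((c : ℂ) • ((1 : Matrix (Fin m) (Fin m) ℂ) ⊗ₖ R₀) - blockM R) := by
    convert sq_flat hρ W using 1
    ext ⟨i, a⟩ ⟨j, b⟩
    have he : ((c : ℂ) • (1 : CStarMatrix (Fin m) (Fin m) A) - star Y * Y) i j
        = (c : ℂ) • (if i = j then (1 : A) else 0) - star (x i) * x j := by
      rw [← hY]
      rfl
    simp only [flat, CStarMatrix.map_apply, Matrix.of_apply, hW, he, map_sub, map_smul]
    rcases eq_or_ne i j with h | h <;> simp [blockM, hR, hR₀, h, -Complex.coe_smul]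
  set t : ℝ := ε / (‖ψ (1 : CStarMatrix (Fin N) (Fin N) ℂ)‖ + 1) with htdef
  have ht : 0 < t := by positivity
  obtain ⟨D, d, G, hD, hd, hG, hp, hm⟩ := mat_transfer hM R R₀ hk hq hc hck h0 h1 hP hPc ht
  refine ⟨D, d, G, hD, hd, ?_⟩
  set b := R₀ + (t : ℂ) • (1 : Matrix (Fin N) (Fin N) ℂ) with hb
  have hbn : ‖ψ (CStarMatrix.ofMatrix b)‖ ≤ 1 + 2 * ε := by
    have hsplit : ψ (CStarMatrix.ofMatrix b) = ψ (ρ 1) + (t : ℂ) • ψ 1 := by
      rw [← map_smul, ← map_add]
      rfl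
    have h2 : t * ‖ψ (1 : CStarMatrix (Fin N) (Fin N) ℂ)‖ ≤ ε := by
      rw [htdef, div_mul_eq_mul_div, div_le_iff₀ (by positivity)]
      nlinarith [norm_nonneg (ψ (1 : CStarMatrix (Fin N) (Fin N) ℂ))]
    have h3 : ‖ψ (ρ 1)‖ ≤ 1 + ε :=
      (norm_le_norm_add_norm_sub' _ 1).trans (add_le_add norm_one_le_one happ1)
    rw [hsplit]
    refine (norm_add_le _ _).trans ?_
    rw [norm_smul, Complex.norm_real, Real.norm_of_nonneg ht.le]
    linarith
  have hlift := norm_lift_le hψ hB b hp hm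
  have hdiff : pulled G x - lift ψ (tensSum (gramDefect G) R)
      = ∑ i, ∑ j, CStarMatrix.ofMatrix fun s t =>
          gramDefect G i j s t • (star (x i) * x j - ψ (ρ (star (x i) * x j))) := by
    simp only [tensSum, map_sum, lift_kronecker]
    have hpull : pulled G x = ∑ i, ∑ j, CStarMatrix.ofMatrix fun s t =>
        gramDefect G i j s t • (star (x i) * x j) := by
      ext s t
      simp [pulled, sum_entry]
    rw [hpull, ← Finset.sum_sub_distrib]
    refine Finset.sum_congr rfl fun i _ => ?_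
    rw [← Finset.sum_sub_distrib]
    refine Finset.sum_congr rfl fun j _ => ?_
    ext s t
    simp [hR, smul_sub]
  have hdn : ‖pulled G x - lift ψ (tensSum (gramDefect G) R)‖
      ≤ (m : ℝ) ^ 2 * ((k : ℝ) ^ 2 + 1) * ε := by
    rw [hdiff]
    calc _ ≤ ∑ _i : Fin m, ∑ _j : Fin m, ((k : ℝ) ^ 2 + 1) * ε := by
          refine norm_sum_le_of_le _ fun i _ => norm_sum_le_of_le _ fun j _ => ?_
          refine (norm_smul_entries_le _ _).trans
            (mul_le_mul (norm_gramDefect_le hG i j) ?_ (norm_nonneg _) (by positivity))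
          rw [norm_sub_rev]
          exact happ2 i j
      _ = _ := by simp; ring
  have hfin : ε * (2 * B + (m : ℝ) ^ 2 * ((k : ℝ) ^ 2 + 1) + 1) = θ :=
    div_mul_cancel₀ θ (by positivity)
  calc ‖pulled G x‖ ≤ ‖lift ψ (tensSum (gramDefect G) R)‖
        + ‖pulled G x - lift ψ (tensSum (gramDefect G) R)‖ := norm_le_norm_add_norm_sub' _ _
    _ ≤ B * (1 + 2 * ε) + (m : ℝ) ^ 2 * ((k : ℝ) ^ 2 + 1) * ε :=
        add_le_add (hlift.trans (mul_le_mul_of_nonneg_left hbn hB)) hdn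
    _ ≤ B + θ := by nlinarith

end

end Vale.P095.Lossy
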