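import Vale.Agent.P095.Lossy.Pins
import Vale.Agent.P101.ZStab.Absorb.Lift

/-!
# P095: lossy almost unperforation from central order zero maps

`n = 2 ^ k` orthogonal slots `s i` and the defect `v` receive `e`; slot `i` belongs to the group
`i / K` and the column `i % K`, the defect to a last group. The group `γ` puts its `j` rows into the
slots `γ * j + l`, all distinct as `4 * j ≤ K`. With `h = (s₀² + θ)^(-1/2)` the element
`w = ∑ s (γ * j + l) * R l κ * (h * (s i)*)` satisfies `w* a w ≈ e`.
-/

open Filter Topology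
open scoped BoundedContinuousFunction

namespace Vale.P095.Lossy

open Vale.P095.SI Vale.P101

noncomputable section

section Slots

variable {U : Type*} [CStarAlgebra U]

/-- The algebra behind lossy almost unperforation. -/
theorem exists_conj {n K j : ℕ} (hK : 0 < K) (hn : (n / K + 2) * j ≤ n) {s : Fin n → U} {v e a : U}
    (hn0 : 0 < n) (r : U) (hpos : s ⟨0, hn0⟩ = star r * r)
    (horth : ∀ i i', star (s i) * s i' = if i = i' then s ⟨0, hn0⟩ * s ⟨0, hn0⟩ else 0)
    (hdef : star v * v = 1 - ∑ i, s i * star (s i)) (habs : s ⟨0, hn0⟩ * v = v)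
    (hse : ∀ i, Commute e (s i) ∧ Commute e (star (s i))) (hve : Commute e v ∧ Commute e (star v))
    (hsa : ∀ i, Commute a (s i) ∧ Commute a (star (s i)))
    {θ : ℝ} (hθ : 0 < θ) :
    ∃ C : ℝ, 0 ≤ C ∧ ∀ (η : ℝ) (R : Fin j → Fin K → U),
      (∀ l κ, Commute (star (R l κ)) (s ⟨0, hn0⟩)) → (∀ κ κ' : Fin K,
      ‖(∑ l, star (R l κ) * a * R l κ') - (if κ = κ' then e else 0)‖ ≤ η) →
        ∃ w : U, ‖star w * a * w - e‖ ≤ C * η + ‖e‖ * (n * θ) := by
  classical
  set s₀ := s ⟨0, hn0⟩ with hs₀
  have hs0 : IsSelfAdjoint s₀ := by rw [hpos]; exact IsSelfAdjoint.star_mul_self r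
  set h : U := cfc (fun t : ℝ => (√(t * t + θ))⁻¹) s₀ with hh
  have hcont : Continuous fun t : ℝ => (√(t * t + θ))⁻¹ :=
    ((continuous_id.mul continuous_id).add continuous_const).sqrt.inv₀ fun t =>
      (Real.sqrt_pos.2 (by nlinarith [mul_self_nonneg t] : (0 : ℝ) < t * t + θ)).ne'
  have hhsa : IsSelfAdjoint h := cfc_predicate _ s₀
  -- the blocks on the right
  set b : Option (Fin n) → U := fun o => o.elim v fun i => h * star (s i) with hb
  set grp : Option (Fin n) → ℕ := fun o => o.elim (n / K + 1) fun i => (i : ℕ) / K with hgrp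
  set col : Option (Fin n) → Fin K := fun o =>
    o.elim ⟨0, hK⟩ fun i => ⟨(i : ℕ) % K, Nat.mod_lt _ hK⟩ with hcol
  have hgle : ∀ o, grp o ≤ n / K + 1 := fun o => by
    cases o with
    | none => exact le_rfl
    | some i => exact le_trans (Nat.div_le_div_right i.2.le) (Nat.le_succ _)
  have hinj : ∀ o o', grp o = grp o' → col o = col o' → o = o' := by
    intro o o' hg hc
    cases o with
    | none =>
      cases o' with
      | none => rfl
      | some i' =>
        have : (i' : ℕ) / K ≤ n / K := Nat.div_le_div_right i'.2.le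
        simp [hgrp] at hg
        omega
    | some i =>
      cases o' with
      | none =>
        have : (i : ℕ) / K ≤ n / K := Nat.div_le_div_right i.2.le
        simp [hgrp] at hg
        omega
      | some i' =>
        simp [hgrp] at hg
        simp [hcol] at hc
        exact congrArg some (Fin.ext (by
          rw [← Nat.div_add_mod (i : ℕ) K, ← Nat.div_add_mod (i' : ℕ) K, hg, hc]))
  have hslot : ∀ (o : Option (Fin n)) (l : Fin j), grp o * j + l < n := fun o l => by
    have h1 : (grp o + 1) * j ≤ (n / K + 2) * j := Nat.mul_le_mul_right _ (by linarith [hgle o])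
    have := l.2
    nlinarith
  set out : Option (Fin n) → Fin j → Fin n := fun o l => ⟨_, hslot o l⟩ with hout
  have hout_eq : ∀ o o' l l', out o l = out o' l' → grp o = grp o' ∧ l = l' := by
    intro o o' l l' hll
    have h1 : grp o * j + l = grp o' * j + l' := congrArg Fin.val hll
    have hl := l.2
    have hl' := l'.2
    have hg : grp o = grp o' := by
      rcases lt_trichotomy (grp o) (grp o') with hlt | heq | hgt
      · have := Nat.mul_le_mul_right j (Nat.succ_le_of_lt hlt)
        rw [Nat.succ_mul] at this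
        omega
      · exact heq
      · have := Nat.mul_le_mul_right j (Nat.succ_le_of_lt hgt)
        rw [Nat.succ_mul] at this
        omega
    refine ⟨hg, Fin.ext ?_⟩
    rw [hg] at h1
    omega
  refine ⟨∑ o, ∑ o', ‖star (b o)‖ * ‖s₀ * s₀‖ * ‖b o'‖,
    Finset.sum_nonneg fun o _ => Finset.sum_nonneg fun o' _ => by positivity,
    fun η R hs0R hR => ?_⟩
  refine ⟨∑ o, ∑ l, s (out o l) * R l (col o) * b o, ?_⟩
  -- the product
  have hq : star (∑ o, ∑ l, s (out o l) * R l (col o) * b o) * a *
      (∑ o, ∑ l, s (out o l) * R l (col o) * b o) =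
      ∑ o, ∑ o', star (b o) * (s₀ * s₀) *
        (if grp o = grp o' then ∑ l, star (R l (col o)) * a * R l (col o') else 0) * b o' := by
    rw [star_sum, Finset.sum_mul, Finset.sum_mul]
    refine Finset.sum_congr rfl fun o _ => ?_
    rw [Finset.mul_sum]
    refine Finset.sum_congr rfl fun o' _ => ?_
    rw [star_sum, Finset.sum_mul, Finset.sum_mul]
    simp only [Finset.mul_sum]
    have hterm : ∀ l l', star (s (out o l) * R l (col o) * b o) * a *
        (s (out o' l') * R l' (col o') * b o') =
        star (b o) * star (R l (col o)) * (star (s (out o l)) * s (out o' l')) * a *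
          R l' (col o') * b o' := by
      intro l l'
      rw [star_mul, star_mul]
      simp only [mul_assoc]
      rw [← mul_assoc a (s (out o' l')), (hsa (out o' l')).1.eq]
      simp only [mul_assoc]
    by_cases hg : grp o = grp o'
    · rw [if_pos hg, Finset.mul_sum, Finset.sum_mul]
      refine Finset.sum_congr rfl fun l _ => ?_
      rw [Finset.sum_eq_single l]
      · rw [hterm, horth, if_pos (Fin.ext (by simp [hout, hg]))]
        simp only [mul_assoc]
        congr 1
        rw [← mul_assoc (star (R l (col o))) s₀, (hs0R l (col o)).eq]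
        simp only [mul_assoc]
        congr 1
        rw [← mul_assoc (star (R l (col o))) s₀, (hs0R l (col o)).eq]
        simp only [mul_assoc]
      · intro l' _ hl'
        rw [hterm, horth, if_neg (fun hh => hl' (hout_eq _ _ _ _ hh).2.symm)]
        simp
      · exact fun hh => absurd (Finset.mem_univ l) hh
    · rw [if_neg hg]
      simp only [mul_zero, zero_mul]
      refine Finset.sum_eq_zero fun l _ => Finset.sum_eq_zero fun l' _ => ?_
      rw [hterm, horth, if_neg (fun hh => hg (hout_eq _ _ _ _ hh).1)]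
      simp
  -- the diagonal
  have hbb : e - e * ∑ o, star (b o) * (s₀ * s₀) * b o =
      e * ∑ i, s i * cfc (fun t : ℝ => θ / (t * t + θ)) s₀ * star (s i) := by
    have hnone : star v * (s₀ * s₀) * v = star v * v := by
      simp only [mul_assoc, habs]
    have hh2 : h * (s₀ * s₀) * h = 1 - cfc (fun t : ℝ => θ / (t * t + θ)) s₀ := by
      have e2 : s₀ * s₀ = cfc (fun t : ℝ => t * t) s₀ := by
        rw [cfc_mul (fun t : ℝ => t) (fun t : ℝ => t) s₀, cfc_id' ℝ s₀ hs0]
      have hc2 : Continuous fun t : ℝ => θ / (t * t + θ) :=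
        continuous_const.div ((continuous_id.mul continuous_id).add continuous_const) fun t =>
          (by nlinarith [mul_self_nonneg t] : (0 : ℝ) < t * t + θ).ne'
      rw [hh, e2, ← cfc_mul (fun t : ℝ => (√(t * t + θ))⁻¹) (fun t : ℝ => t * t) s₀
          hcont.continuousOn (by fun_prop),
        ← cfc_mul (fun t : ℝ => (√(t * t + θ))⁻¹ * (t * t)) (fun t : ℝ => (√(t * t + θ))⁻¹) s₀
          ((hcont.mul (by fun_prop : Continuous fun t : ℝ => t * t)).continuousOn) hcont.continuousOn,
        ← cfc_const_one ℝ s₀ hs0, ← cfc_sub _ _ s₀ (by fun_prop) hc2.continuousOn]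
      refine cfc_congr fun t _ => ?_
      have ht : 0 < t * t + θ := by nlinarith [mul_self_nonneg t]
      have := Real.mul_self_sqrt ht.le
      have hs : √(t * t + θ) ≠ 0 := (Real.sqrt_pos.2 ht).ne'
      field_simp
      rw [Real.sq_sqrt (by positivity : (0 : ℝ) ≤ t ^ 2 + θ)]
      ring
    have hsome : ∀ i, star (h * star (s i)) * (s₀ * s₀) * (h * star (s i)) =
        s i * star (s i) - s i * cfc (fun t : ℝ => θ / (t * t + θ)) s₀ * star (s i) := by
      intro i
      rw [star_mul, star_star, hhsa.star_eq]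
      calc s i * h * (s₀ * s₀) * (h * star (s i)) = s i * (h * (s₀ * s₀) * h) * star (s i) := by
            simp only [mul_assoc]
        _ = _ := by rw [hh2, mul_sub, mul_one, sub_mul]
    rw [Fintype.sum_option]
    simp only [hb, Option.elim_none, Option.elim_some, hsome, hnone, hdef,
      Finset.sum_sub_distrib]
    simp only [mul_add, mul_sub, mul_one]
    abel
  have hsmall : ∀ i, ‖s i * cfc (fun t : ℝ => θ / (t * t + θ)) s₀ * star (s i)‖ ≤ θ := by
    intro i
    set q := cfc (fun t : ℝ => √(θ / (t * t + θ))) s₀ with hqd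
    have hqc : Continuous fun t : ℝ => √(θ / (t * t + θ)) :=
      (continuous_const.div ((continuous_id.mul continuous_id).add continuous_const) fun t =>
        (by nlinarith [mul_self_nonneg t] : (0 : ℝ) < t * t + θ).ne').sqrt
    have hqsa : IsSelfAdjoint q := cfc_predicate _ s₀
    have hqq : cfc (fun t : ℝ => θ / (t * t + θ)) s₀ = q * q := by
      rw [hqd, ← cfc_mul _ _ s₀ hqc.continuousOn hqc.continuousOn]
      exact cfc_congr fun t _ => (Real.mul_self_sqrt (by positivity [mul_self_nonneg t])).symm
    rw [hqq, show s i * (q * q) * star (s i) = (s i * q) * star (s i * q) by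
      rw [star_mul, hqsa.star_eq]; simp only [mul_assoc], CStarRing.norm_self_mul_star,
      ← CStarRing.norm_star_mul_self, star_mul, hqsa.star_eq, mul_assoc q, ← mul_assoc (star (s i)),
      horth i i, if_pos rfl]
    rw [show q * (s₀ * s₀ * q) = cfc (fun t : ℝ => θ * (t * t) / (t * t + θ)) s₀ by
      rw [show s₀ * s₀ = cfc (fun t : ℝ => t * t) s₀ by
        rw [cfc_mul (fun t : ℝ => t) (fun t : ℝ => t) s₀, cfc_id' ℝ s₀ hs0], hqd,
        ← cfc_mul (fun t : ℝ => t * t) (fun t : ℝ => √(θ / (t * t + θ))) s₀ (by fun_prop)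
          hqc.continuousOn,
        ← cfc_mul (fun t : ℝ => √(θ / (t * t + θ)))
          (fun t : ℝ => t * t * √(θ / (t * t + θ))) s₀ hqc.continuousOn
          (((by fun_prop : Continuous fun t : ℝ => t * t).mul hqc).continuousOn)]
      refine cfc_congr fun t _ => ?_
      have ht : 0 < t * t + θ := by nlinarith [mul_self_nonneg t]
      have := Real.mul_self_sqrt (div_nonneg hθ.le ht.le)
      rw [show √(θ / (t * t + θ)) * (t * t * √(θ / (t * t + θ))) =
        t * t * (√(θ / (t * t + θ)) * √(θ / (t * t + θ))) by ring, this]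
      ring]
    refine norm_cfc_le hθ.le fun t _ => ?_
    have ht : 0 < t * t + θ := by nlinarith [mul_self_nonneg t]
    rw [Real.norm_eq_abs, abs_of_nonneg (by positivity [mul_self_nonneg t]), div_le_iff₀ ht]
    nlinarith [mul_self_nonneg t]
  -- the estimate
  have hbe : ∀ o, Commute e (star (b o) * (s₀ * s₀)) := by
    intro o
    have he0 := (hse ⟨0, hn0⟩).1
    cases o with
    | none => exact hve.2.mul_right (he0.mul_right he0)
    | some i =>
      have heh : Commute e h := (Commute.cfc_real he0.symm _).symm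
      show Commute e (star (h * star (s i)) * (s₀ * s₀))
      rw [star_mul, star_star, hhsa.star_eq]
      exact ((hse i).1.mul_right heh).mul_right (he0.mul_right he0)
  have hdiag : e * ∑ o, star (b o) * (s₀ * s₀) * b o =
      ∑ o, ∑ o', star (b o) * (s₀ * s₀) * (if o = o' then e else 0) * b o' := by
    rw [Finset.mul_sum]
    refine Finset.sum_congr rfl fun o _ => ?_
    rw [Finset.sum_eq_single o (fun o' _ ho' => by simp [Ne.symm ho']) (by simp), if_pos rfl,
      ← mul_assoc, (hbe o).eq]
  have hite : ∀ o o', ‖(if grp o = grp o' then ∑ l, star (R l (col o)) * a * R l (col o') else 0) -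
      (if o = o' then e else 0)‖ ≤ η := by
    intro o o'
    have hη : 0 ≤ η := (norm_nonneg _).trans (hR ⟨0, hK⟩ ⟨0, hK⟩)
    by_cases hg : grp o = grp o'
    · by_cases ho : o = o'
      · subst ho
        simpa using hR (col o) (col o)
      · rw [if_pos hg, if_neg ho]
        have hc : col o ≠ col o' := fun hc => ho (hinj o o' hg hc)
        simpa [hc] using hR (col o) (col o')
    · rw [if_neg hg, if_neg (fun ho => hg (by rw [ho]))]
      simpa using hη
  rw [hq]
  calc _ = ‖(∑ o, ∑ o', star (b o) * (s₀ * s₀) *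
          (if grp o = grp o' then ∑ l, star (R l (col o)) * a * R l (col o') else 0) * b o' -
          ∑ o, ∑ o', star (b o) * (s₀ * s₀) * (if o = o' then e else 0) * b o') -
        (e - e * ∑ o, star (b o) * (s₀ * s₀) * b o)‖ := by rw [hdiag]; congr 1; abel
    _ ≤ _ := by
      refine (norm_sub_le _ _).trans (add_le_add ?_ ?_)
      · rw [← Finset.sum_sub_distrib, Finset.sum_mul]
        refine (norm_sum_le _ _).trans (Finset.sum_le_sum fun o _ => ?_)
        rw [← Finset.sum_sub_distrib, Finset.sum_mul]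
        refine (norm_sum_le _ _).trans (Finset.sum_le_sum fun o' _ => ?_)
        rw [← sub_mul, ← mul_sub]
        refine (norm_mul_le _ _).trans ?_
        calc ‖star (b o) * (s₀ * s₀) * _‖ * ‖b o'‖ ≤ ‖star (b o)‖ * ‖s₀ * s₀‖ * η * ‖b o'‖ := by
              refine mul_le_mul_of_nonneg_right ((norm_mul_le _ _).trans ?_) (norm_nonneg _)
              exact mul_le_mul (norm_mul_le _ _) (hite o o') (norm_nonneg _) (by positivity)
          _ = _ := by ring
      · rw [hbb]
        refine (norm_mul_le _ _).trans (mul_le_mul_of_nonneg_left ?_ (norm_nonneg _))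
        refine (norm_sum_le _ _).trans ((Finset.sum_le_sum fun i _ => hsmall i).trans_eq ?_)
        simp

end Slots

section Main



theorem unperf : UnperfStmt := by
  intro A _ ω hω hRW e a _ _ K j hK hjK hle ε hε
  obtain ⟨k, hk, hkK⟩ : ∃ k : ℕ, 1 ≤ k ∧ 8 * K ≤ 2 ^ k :=
    ⟨8 * K, by omega, Nat.lt_two_pow_self.le⟩
  set n := 2 ^ k with hn
  have hnK : (n / K + 2) * j ≤ n := by
    have h1 : n / K * K ≤ n := Nat.div_mul_le_self n K
    have h2 := Nat.mul_le_mul_left (n / K) hjK
    nlinarith
  obtain ⟨s, v, hsv⟩ := hRW k hk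
  obtain ⟨θ, hθ, hθe⟩ : ∃ θ : ℝ, 0 < θ ∧ (‖constSeq ω e‖ * (n * θ) : ℝ) < ε / 2 := by
    refine ⟨ε / (4 * (‖constSeq ω e‖ * n + 1)), by positivity, ?_⟩
    rw [← mul_assoc, ← mul_div_assoc, div_lt_iff₀ (by positivity)]
    nlinarith [mul_nonneg (norm_nonneg (constSeq ω e)) (Nat.cast_nonneg (α := ℝ) n)]
  let cA : A → Ultrapower A ω := constSeq ω
  let inc : FOmega A ω →⋆ₐ[ℂ] Ultrapower A ω := (Central A ω).subtype
  have hcomm : ∀ (x : FOmega A ω) (y : A), Commute (cA y) (inc x) := fun x y =>
    (mem_central ω).1 (show inc x ∈ Central A ω from x.2) y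
  have hcomm' : ∀ (x : FOmega A ω) (y : A), Commute (cA y) (star (inc x)) := fun x y => by
    rw [← map_star]; exact hcomm _ y
  obtain ⟨r, hr⟩ := hsv.pos
  have hn0 : 0 < n := Nat.two_pow_pos k
  have hcs : ∀ y : A, star (cA y) = cA (star y) := fun y => star_cls _ _
  let c : A →⋆ₐ[ℂ] Ultrapower A ω := P101.ZS.constHom ω
  obtain ⟨C, hC, hw⟩ := exists_conj hK hnK (hn0 := hn0) (s := fun i => inc (s i)) (v := inc v)
    (e := cA e) (a := cA a) (inc r) (by rw [← map_star, ← map_mul]; exact congrArg inc hr)
    (fun i i' => by rw [← map_star, ← map_mul, hsv.orth i i']; split_ifs <;> simp)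
    (by simp only [← map_star, ← map_mul]; rw [hsv.defect, map_sub, map_one, map_sum])
    (by rw [← map_mul, hsv.absorb]) (fun i => ⟨hcomm _ e, hcomm' _ e⟩) ⟨hcomm _ e, hcomm' _ e⟩
    (fun i => ⟨hcomm _ a, hcomm' _ a⟩) hθ
  obtain ⟨R, hR⟩ := hle (ε / (2 * (C + 1))) (by positivity)
  obtain ⟨w, hw⟩ := hw (ε / (2 * (C + 1))) (fun l κ => c (R l κ))
    (fun l κ => by rw [← map_star]; exact hcomm _ _) fun κ κ' => by
      have e1 : ∀ y, cA y = c y := fun y => rfl
      simp only [e1]
      rw [show (if κ = κ' then c e else 0) = c (if κ = κ' then e else 0) by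
        split_ifs <;> simp]
      simp only [← map_star, ← map_mul, ← map_sum, ← map_sub]
      exact (NonUnitalStarAlgHom.norm_apply_le c _).trans (hR κ κ')
  have hlt : ‖star w * cA a * w - cA e‖ < ε := by
    have hC1 : C * (ε / (2 * (C + 1))) ≤ ε / 2 := by
      rw [← mul_div_assoc, div_le_iff₀ (by positivity)]
      nlinarith
    linarith
  obtain ⟨f, rfl⟩ := cls_surjective ω w
  rw [star_cls, ← map_mul, ← map_mul, ← map_sub, norm_cls] at hlt
  obtain ⟨m, hm⟩ := ((tendsto_limNorm ω _).eventually (eventually_lt_nhds hlt)).exists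
  exact ⟨f m, hm.le⟩

end Main

end

end Vale.P095.Lossy
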