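import Vale.Agent.P095.Lossy.Main
import Vale.Agent.P095.Lossy.Unperf
import Vale.Agent.P095.Lossy.Pull
import Vale.Agent.P095.SI.Equivariant
import Vale.Agent.P095.McDuff.SysMain
import Vale.Agent.P095.Equi.Absorb
import Vale.Agent.P101.ZStab.Univ

/-!
# P095: `Z`-stable unital algebras with a tracial state carry equivariantly `Z`-stable actions

From the modules: lossy comparison replaces strict comparison in property (SI).
-/

open scoped Kronecker Matrix.Norms.L2Operator

namespace Vale.P095.Lossy

open Vale.P095.SI Vale.P095.Tracial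

noncomputable section

/-- `Z(2,3)` in the fixed central sequences of every action of an amenable group. -/
theorem fixed_dimDrop_of_noChar (hM : MatStmt) (hU : UpperStmt) (hL : LowerStmt)
    (A : Type) [CStarAlgebra A] [Nontrivial A] [IsSimpleRing A]
    [TopologicalSpace.SeparableSpace A] (hA : HasCPAP A) (hτ : Nonempty (TracialState A))
    (G : Type) [Group G] [Countable G] (hG : IsFolner G) (α : G →* (A ≃⋆ₐ[ℂ] A))
    (ω : Ultrafilter ℕ) (hω : (ω : Filter ℕ) ≤ Filter.cofinite)
    (hchar : P101.NoCharacters (P101.FOmega A ω)) :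
    Vale.P095.HasFixedDimDropHom ω (fun g a => α g a) := by
  obtain ⟨x, hn, hc, hsq, hun, hinv⟩ := Vale.P095.McDuff.exists_mcduff_sequence hω α hchar hG
  exact fixed_dimDrop_of_si hω hA (assemble hM pull hU hL unperf A ω hω hA hτ hchar) hG α
    (invSquareZero_of_sequence hG α hn hc hsq hun hinv)

/-- Cocycle conjugacy to the stabilised action. -/
theorem equiStable (hM : MatStmt) (hU : UpperStmt) (hL : LowerStmt) (hRep : Equi.RepStmt)
    (A : Type) [CStarAlgebra A] [Nontrivial A] [IsSimpleRing A]
    [TopologicalSpace.SeparableSpace A] (hA : HasCPAP A) (hτ : Nonempty (TracialState A))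
    (G : Type) [Group G] [Countable G] (hG : IsFolner G) (α : G →* (A ≃⋆ₐ[ℂ] A))
    (ω : Ultrafilter ℕ) (hω : (ω : Filter ℕ) ≤ Filter.cofinite)
    (hchar : P101.NoCharacters (P101.FOmega A ω))
    (B : Type) [CStarAlgebra B] (hB : P101.ZS.IsJiangSu B) (T : P101.ZS.Tower B) :
    Equi.IsEquiStable A B α :=
  Equi.equiAbsorb hRep P101.ZS.univ A ω hω G α
    (fixed_dimDrop_of_noChar hM hU hL A hA hτ G hG α ω hω hchar) B hB T

end

end Vale.P095.Lossy
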