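import Mathlib

/-!
# Moments of free unitaries with matrix coefficients

For generators `g` and matrices `a g` put `Wel a = ∑_{g ≠ h} g⁻¹ h ⊗ a_gᴴ a_h` in the group algebra
of the free group.  Its `(2 p)`-th moment is at most `N β ^ (2 p)` for
`β = 2 √(S C) + 2 C`, `S = ‖∑ a_gᴴ a_g‖`, `C = ‖∑ a_g a_gᴴ‖`.  Everything is computed on a ball of
reduced words, where left translation splits into a creation and an annihilation part.
-/

open scoped Kronecker Matrix.Norms.L2Operator MonoidAlgebra

namespace Vale.P095.Lossy.Free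

noncomputable section

set_option linter.unusedSectionVars false

/-! ### Matrices of partial maps -/

section Pmat

variable {X Γ n n' o : Type*} [Fintype X] [DecidableEq X] [Fintype Γ] [DecidableEq Γ] [Fintype n]
  [DecidableEq n] [Fintype n'] [DecidableEq n'] [Fintype o] [DecidableEq o]

/-- The matrix of a partial map. -/
def pmat (f : X → Option X) : Matrix X X ℂ := Matrix.of fun x y => if f y = some x then 1 else 0

theorem norm_one_kron (b : Matrix n n ℂ) : ‖(1 : Matrix X X ℂ) ⊗ₖ b‖ ≤ ‖b‖ := by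
  let φ : Matrix n n ℂ →⋆ₙₐ[ℂ] Matrix (X × n) (X × n) ℂ :=
    { toFun := fun b => (1 : Matrix X X ℂ) ⊗ₖ b
      map_smul' := fun c b => Matrix.kronecker_smul c _ b
      map_zero' := Matrix.kronecker_zero _
      map_add' := fun b b' => Matrix.kronecker_add _ _ _
      map_mul' := fun b b' => by rw [← Matrix.mul_kronecker_mul, one_mul]
      map_star' := fun b => by
        simp [Matrix.star_eq_conjTranspose, Matrix.conjTranspose_kronecker] }
  exact NonUnitalStarAlgHom.norm_apply_le φ b

/-- Partial maps with disjoint ranges turn coefficients into an operator of norm at most that of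
the column. -/
theorem norm_pmat_sum (f : Γ → X → Option X)
    (hinj : ∀ g g' y y' x, f g y = some x → f g' y' = some x → g = g' ∧ y = y')
    (a : Γ → Matrix n' n ℂ) :
    ‖∑ g, pmat (f g) ⊗ₖ a g‖ ^ 2 ≤ ‖∑ g, (a g).conjTranspose * a g‖ := by
  let R : Matrix (X × n') (Γ × X × n') ℂ :=
    Matrix.of fun x z => if f z.1 z.2.1 = some x.1 ∧ z.2.2 = x.2 then 1 else 0
  let L : Matrix (Γ × X × n') (X × n) ℂ :=
    Matrix.of fun z y => if z.2.1 = y.1 then a z.1 z.2.2 y.2 else 0
  have hprod : ∑ g, pmat (f g) ⊗ₖ a g = R * L := by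
    ext ⟨x, α⟩ ⟨y, β⟩
    simp only [Matrix.sum_apply, Matrix.kroneckerMap_apply, pmat, Matrix.of_apply, Matrix.mul_apply,
      R, L, Fintype.sum_prod_type]
    refine Finset.sum_congr rfl fun g _ => ?_
    rw [Finset.sum_eq_single y (fun x' _ hx' => by simp [hx']) (by simp),
      Finset.sum_eq_single α (fun α' _ hα => by simp [hα]) (by simp)]
    simp
  have hR : R.conjTranspose * R =
      Matrix.diagonal fun z => if (f z.1 z.2.1).isSome then (1 : ℂ) else 0 := by
    ext ⟨g, y, α⟩ ⟨g', y', α'⟩
    simp only [Matrix.mul_apply, Matrix.conjTranspose_apply, Fintype.sum_prod_type, R,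
      Matrix.of_apply, Matrix.diagonal_apply]
    cases h : f g y with
    | none => simp
    | some x₀ =>
      rw [Finset.sum_eq_single x₀ (fun x _ hx => by simp [Ne.symm hx]) (by simp),
        Finset.sum_eq_single α (fun β _ hβ => by simp [Ne.symm hβ]) (by simp)]
      by_cases he : (g, y, α) = (g', y', α')
      · simp only [Prod.mk.injEq] at he
        obtain ⟨rfl, rfl, rfl⟩ := he
        simp [h]
      · rw [if_neg he]
        by_cases h' : f g' y' = some x₀ ∧ α' = α
        · obtain ⟨rfl, rfl⟩ := hinj g g' y y' x₀ h h'.1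
          exact absurd (by rw [h'.2]) he
        · simp [h']
  have hRn : ‖R‖ ≤ 1 := by
    have h1 : ‖R‖ * ‖R‖ ≤ 1 := by
      rw [← Matrix.l2_opNorm_conjTranspose_mul_self, hR, Matrix.l2_opNorm_diagonal]
      exact (pi_norm_le_iff_of_nonneg zero_le_one).2 fun z => by split_ifs <;> simp
    nlinarith [norm_nonneg R]
  have hL : L.conjTranspose * L = (1 : Matrix X X ℂ) ⊗ₖ ∑ g, (a g).conjTranspose * a g := by
    ext ⟨y, α⟩ ⟨y', β⟩
    simp only [Matrix.mul_apply, Matrix.conjTranspose_apply, Fintype.sum_prod_type, L,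
      Matrix.of_apply, Matrix.kroneckerMap_apply, Matrix.one_apply, Matrix.sum_apply]
    rcases eq_or_ne y y' with rfl | hy
    · rw [if_pos rfl, one_mul]
      refine Finset.sum_congr rfl fun g _ => ?_
      rw [Finset.sum_eq_single y (fun x _ hx => by simp [hx]) (by simp)]
      simp
    · rw [if_neg hy, zero_mul]
      refine Finset.sum_eq_zero fun g _ => Finset.sum_eq_zero fun x _ =>
        Finset.sum_eq_zero fun t _ => ?_
      by_cases hx : x = y
      · simp [hx, hy]
      · simp [hx]
  have hLn : ‖L‖ ^ 2 ≤ ‖∑ g, (a g).conjTranspose * a g‖ := by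
    rw [sq, ← Matrix.l2_opNorm_conjTranspose_mul_self, hL]
    exact norm_one_kron _
  refine le_trans ?_ hLn
  rw [hprod]
  refine pow_le_pow_left₀ (norm_nonneg _) ((Matrix.l2_opNorm_mul R L).trans ?_) 2
  exact mul_le_of_le_one_left (norm_nonneg _) hRn

theorem entry_le (A : Matrix n n ℂ) (i j : n) : ‖A i j‖ ≤ ‖A‖ := by
  have h := Matrix.l2_opNorm_mulVec A (EuclideanSpace.single j (1 : ℂ))
  have h1 := (PiLp.norm_apply_le (p := 2)
    ((EuclideanSpace.equiv n ℂ).symm <| A.mulVec (EuclideanSpace.single j (1 : ℂ))) i).trans h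
  simpa using h1

end Pmat

/-! ### Evaluation of the group algebra in permutation matrices -/

section Eval

variable {G X n : Type*} [Group G] [Fintype X] [DecidableEq X] [Fintype n] [DecidableEq n]

/-- Permutation matrices. -/
def permHom : Equiv.Perm X →* Matrix X X ℂ where
  toFun e := Matrix.of fun x y => if e y = x then 1 else 0
  map_one' := by ext x y; simp [Matrix.one_apply, eq_comm]
  map_mul' e e' := by
    ext x y
    rw [Matrix.mul_apply, Finset.sum_eq_single (e' y) (fun z _ hz => by simp [Ne.symm hz])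
      (by simp)]
    simp only [Matrix.of_apply, Equiv.Perm.mul_apply, if_true, mul_one]
    exact if_congr Iff.rfl rfl rfl

theorem permHom_apply (e : Equiv.Perm X) (x y : X) :
    permHom e x y = if e y = x then 1 else 0 := rfl

theorem permHom_star (e : Equiv.Perm X) : (permHom e).conjTranspose = permHom e⁻¹ := by
  ext x y
  rw [Matrix.conjTranspose_apply, permHom_apply, permHom_apply, Equiv.Perm.inv_def]
  by_cases h : e x = y
  · subst h; simp
  · rw [if_neg h, if_neg (fun h' => h (by rw [← h']; simp))]; simp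

/-- Coefficients as block scalars. -/
def oneKron : Matrix n n ℂ →+* Matrix (X × n) (X × n) ℂ where
  toFun b := (1 : Matrix X X ℂ) ⊗ₖ b
  map_one' := Matrix.one_kronecker_one
  map_mul' b b' := by rw [← Matrix.mul_kronecker_mul, one_mul]
  map_zero' := Matrix.kronecker_zero _
  map_add' b b' := Matrix.kronecker_add _ _ _

/-- The representation of the group algebra attached to an action. -/
def Phi (π : G →* Equiv.Perm X) : MonoidAlgebra (Matrix n n ℂ) G →+* Matrix (X × n) (X × n) ℂ :=
  MonoidAlgebra.liftNCRingHom oneKron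
    { toFun := fun w => permHom (π w) ⊗ₖ (1 : Matrix n n ℂ)
      map_one' := by simp
      map_mul' := fun w w' => by simp [← Matrix.mul_kronecker_mul] }
    fun b w => by simp [Commute, SemiconjBy, oneKron, ← Matrix.mul_kronecker_mul]

theorem Phi_single (π : G →* Equiv.Perm X) (w : G) (b : Matrix n n ℂ) :
    Phi π (MonoidAlgebra.single w b) = permHom (π w) ⊗ₖ b := by
  refine (MonoidAlgebra.liftNCRingHom_single _ _ _ w b).trans ?_
  simp [oneKron, ← Matrix.mul_kronecker_mul]

theorem Phi_apply (π : G →* Equiv.Perm X) (x : MonoidAlgebra (Matrix n n ℂ) G) (y z : X)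
    (α β : n) :
    Phi π x (y, α) (z, β) = ∑ w ∈ x.coeff.support, if π w z = y then x.coeff w α β else 0 := by
  conv_lhs => rw [← MonoidAlgebra.sum_coeff_single x]
  rw [Finsupp.sum, map_sum, Matrix.sum_apply]
  refine Finset.sum_congr rfl fun w _ => ?_
  simp [Phi_single, permHom_apply]

theorem Phi_zero_of (π : G →* Equiv.Perm X) (x : MonoidAlgebra (Matrix n n ℂ) G) {y z : X}
    (h : ∀ w ∈ x.coeff.support, π w z ≠ y) (α β : n) : Phi π x (y, α) (z, β) = 0 := by
  rw [Phi_apply]
  exact Finset.sum_eq_zero fun w hw => if_neg (h w hw)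

end Eval

/-! ### The ball of the free group -/

section Ball

variable {Γ : Type} [Fintype Γ] [DecidableEq Γ]

/-- Reduced words of length at most `M`. -/
abbrev Ball (Γ : Type) [DecidableEq Γ] (M : ℕ) := {w : FreeGroup Γ // FreeGroup.norm w ≤ M}

instance (M : ℕ) : Finite (Ball Γ M) :=
  have : Finite {l : List (Γ × Bool) // l.length ≤ M} :=
    (List.finite_length_le (Γ × Bool) M).to_subtype
  Finite.of_injective
    (fun w : Ball Γ M => (⟨w.1.toWord, w.2⟩ : {l : List (Γ × Bool) // l.length ≤ M}))
    fun _ _ h => Subtype.ext (FreeGroup.toWord_injective (congrArg Subtype.val h))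

instance (M : ℕ) : Fintype (Ball Γ M) := Fintype.ofFinite _

/-- The first letter. -/
def starts (b : Bool) (g : Γ) (w : FreeGroup Γ) : Prop := w.toWord.head? = some (g, b)

instance (b : Bool) (g : Γ) (w : FreeGroup Γ) : Decidable (starts b g w) :=
  inferInstanceAs (Decidable (_ = _))

theorem toWord_letter_mul (g : Γ) (b : Bool) (w : FreeGroup Γ) :
    (FreeGroup.mk [(g, b)] * w).toWord =
      if starts (!b) g w then w.toWord.tail else (g, b) :: w.toWord := by
  have h : (FreeGroup.mk [(g, b)] * w).toWord = FreeGroup.reduce ((g, b) :: w.toWord) := by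
    rw [FreeGroup.toWord_mul, FreeGroup.toWord_mk]
    rfl
  have hr : FreeGroup.reduce w.toWord = w.toWord :=
    FreeGroup.isReduced_iff_reduce_eq.1 FreeGroup.isReduced_toWord
  rw [h, FreeGroup.reduce.cons, hr]
  by_cases hs : starts (!b) g w
  · rw [if_pos hs]
    unfold starts at hs
    cases hw : w.toWord with
    | nil => simp [hw] at hs
    | cons hd tl =>
      simp only [hw, List.head?_cons, Option.some.injEq] at hs
      subst hs
      simp
  · rw [if_neg hs]
    unfold starts at hs
    cases hw : w.toWord with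
    | nil => simp
    | cons hd tl =>
      simp only [hw, List.head?_cons, Option.some.injEq] at hs
      obtain ⟨g', b'⟩ := hd
      refine if_neg ?_
      rintro ⟨rfl, hb⟩
      simp only at hb
      subst hb
      simp at hs

theorem of_eq_mk (g : Γ) : FreeGroup.of g = FreeGroup.mk [(g, true)] := rfl

theorem inv_of_eq_mk (g : Γ) : (FreeGroup.of g)⁻¹ = FreeGroup.mk [(g, false)] := rfl

theorem norm_of_mul_le (g : Γ) (w : FreeGroup Γ) :
    FreeGroup.norm (FreeGroup.of g * w) ≤ FreeGroup.norm w + 1 :=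
  (FreeGroup.norm_mul_le _ _).trans (by simp [add_comm])

theorem norm_of_mul_le_of_starts {g : Γ} {w : FreeGroup Γ} (h : starts false g w) :
    FreeGroup.norm (FreeGroup.of g * w) ≤ FreeGroup.norm w := by
  rw [FreeGroup.norm, of_eq_mk, toWord_letter_mul, if_pos (by simpa using h), FreeGroup.norm]
  simp

theorem norm_of_mul {g : Γ} {w : FreeGroup Γ} (h : ¬starts false g w) :
    FreeGroup.norm (FreeGroup.of g * w) = FreeGroup.norm w + 1 := by
  rw [FreeGroup.norm, of_eq_mk, toWord_letter_mul, if_neg (by simpa using h), FreeGroup.norm]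
  simp

theorem starts_of_mul {g : Γ} {w : FreeGroup Γ} (h : ¬starts false g w) :
    starts true g (FreeGroup.of g * w) := by
  rw [starts, of_eq_mk, toWord_letter_mul, if_neg (by simpa using h)]
  rfl

theorem starts_inv_mul {g : Γ} {w : FreeGroup Γ} (h : ¬starts true g w) :
    starts false g ((FreeGroup.of g)⁻¹ * w) := by
  rw [starts, inv_of_eq_mk, toWord_letter_mul, if_neg (by simpa using h)]
  rfl

theorem norm_inv_mul {g : Γ} {w : FreeGroup Γ} (h : ¬starts true g w) :
    FreeGroup.norm ((FreeGroup.of g)⁻¹ * w) = FreeGroup.norm w + 1 := by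
  rw [FreeGroup.norm, inv_of_eq_mk, toWord_letter_mul, if_neg (by simpa using h), FreeGroup.norm]
  simp

theorem not_starts_true_of_mul {g : Γ} {w : FreeGroup Γ} (h : starts false g w) :
    ¬starts true g (FreeGroup.of g * w) := by
  intro h'
  have e := toWord_letter_mul g true w
  rw [if_pos (by simpa using h), ← of_eq_mk] at e
  have hw : w.toWord = (g, false) :: w.toWord.tail := by
    rw [starts] at h
    cases hl : w.toWord with
    | nil => simp [hl] at h
    | cons hd tl => simp [hl] at h; simp [h]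
  rw [starts, e] at h'
  have hred : FreeGroup.IsReduced w.toWord := FreeGroup.isReduced_toWord
  cases ht : w.toWord.tail with
  | nil => simp [ht] at h'
  | cons hd tl =>
    simp [ht] at h'
    rw [hw, ht, h'] at hred
    simpa using (FreeGroup.isReduced_cons_cons.1 hred).1 rfl

variable (M : ℕ)

/-- An extension of left translation by a generator to a permutation of the ball. -/
def shiftEquiv (g : Γ) : {x : Ball Γ M // FreeGroup.norm (FreeGroup.of g * x.1) ≤ M} ≃
    {y : Ball Γ M // FreeGroup.norm ((FreeGroup.of g)⁻¹ * y.1) ≤ M} where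
  toFun x := ⟨⟨FreeGroup.of g * x.1.1, x.2⟩, by simpa using x.1.2⟩
  invFun y := ⟨⟨(FreeGroup.of g)⁻¹ * y.1.1, y.2⟩, by simpa using y.1.2⟩
  left_inv x := by ext; simp
  right_inv y := by ext; simp

/-- The action of the free group on the ball. -/
def sigma : FreeGroup Γ →* Equiv.Perm (Ball Γ M) :=
  FreeGroup.lift fun g => (shiftEquiv M g).extendSubtype

theorem sigma_of {g : Γ} {x : Ball Γ M} (h : FreeGroup.norm (FreeGroup.of g * x.1) ≤ M) :
    sigma M (FreeGroup.of g) x = ⟨FreeGroup.of g * x.1, h⟩ := by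
  rw [sigma, FreeGroup.lift_apply_of]
  exact (Equiv.extendSubtype_apply_of_mem (shiftEquiv M g) x h).trans rfl

theorem sigma_inv {g : Γ} {x : Ball Γ M} (h : FreeGroup.norm ((FreeGroup.of g)⁻¹ * x.1) ≤ M) :
    sigma M (FreeGroup.of g)⁻¹ x = ⟨(FreeGroup.of g)⁻¹ * x.1, h⟩ := by
  rw [map_inv, Equiv.Perm.inv_eq_iff_eq, sigma_of M (x := ⟨_, h⟩) (by simpa using x.2)]
  ext
  simp

/-- The empty word. -/
def base : Ball Γ M := ⟨1, by simp⟩

theorem sigma_base (w : FreeGroup Γ) (hw : FreeGroup.norm w ≤ M) :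
    sigma M w (base M) = ⟨w, hw⟩ := by
  suffices H : ∀ l : List (Γ × Bool), FreeGroup.IsReduced l → ∀ h : l.length ≤ M,
      sigma M (FreeGroup.mk l) (base M) =
        ⟨FreeGroup.mk l, (FreeGroup.norm_mk_le).trans h⟩ by
    have e := H w.toWord FreeGroup.isReduced_toWord hw
    simp only [FreeGroup.mk_toWord] at e
    exact e
  intro l
  induction l with
  | nil => intro _ _; rfl
  | cons hd tl ih =>
    obtain ⟨g, b⟩ := hd
    intro hl h
    have h' : tl.length ≤ M := (Nat.le_succ _).trans h
    have hc : FreeGroup.mk ((g, b) :: tl) = FreeGroup.mk [(g, b)] * FreeGroup.mk tl := by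
      rw [FreeGroup.mul_mk]; rfl
    have hn : FreeGroup.norm (FreeGroup.mk [(g, b)] * FreeGroup.mk tl) ≤ M :=
      hc ▸ FreeGroup.norm_mk_le.trans h
    rw [Subtype.ext_iff]
    simp only [hc, map_mul, Equiv.Perm.mul_apply, ih (List.IsChain.tail hl) h']
    cases b
    · rw [← inv_of_eq_mk] at hn ⊢
      exact congrArg Subtype.val
        (sigma_inv M (x := ⟨FreeGroup.mk tl, FreeGroup.norm_mk_le.trans h'⟩) hn)
    · rw [← of_eq_mk] at hn ⊢
      exact congrArg Subtype.val
        (sigma_of M (x := ⟨FreeGroup.mk tl, FreeGroup.norm_mk_le.trans h'⟩) hn)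

/-- The creation part of left translation. -/
def cfun (g : Γ) (x : Ball Γ M) : Option (Ball Γ M) :=
  if h : ¬starts false g x.1 ∧ FreeGroup.norm x.1 + 1 ≤ M then
    some ⟨FreeGroup.of g * x.1, (norm_of_mul h.1).trans_le h.2⟩ else none

/-- The inverse of the annihilation part of left translation. -/
def afun (g : Γ) (y : Ball Γ M) : Option (Ball Γ M) :=
  if h : ¬starts true g y.1 ∧ FreeGroup.norm y.1 + 1 ≤ M then
    some ⟨(FreeGroup.of g)⁻¹ * y.1, (norm_inv_mul h.1).trans_le h.2⟩ else none

/-- The projection on the words starting with the inverse of a generator. -/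
def qfun (g : Γ) (x : Ball Γ M) : Option (Ball Γ M) := if starts false g x.1 then some x else none

/-- Left translation inside the ball. -/
def pfun (g : Γ) (x : Ball Γ M) : Option (Ball Γ M) :=
  if h : FreeGroup.norm (FreeGroup.of g * x.1) ≤ M then some ⟨FreeGroup.of g * x.1, h⟩ else none

theorem cfun_inj (g g' : Γ) (y y' x : Ball Γ M) (h : cfun M g y = some x)
    (h' : cfun M g' y' = some x) : g = g' ∧ y = y' := by
  unfold cfun at h h'
  split_ifs at h h' with h1 h2
  obtain rfl := Option.some_injective _ h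
  have e : FreeGroup.of g' * y'.1 = FreeGroup.of g * y.1 :=
    congrArg Subtype.val (Option.some_injective _ h')
  have s1 := starts_of_mul h1.1
  have s2 := starts_of_mul h2.1
  rw [e, starts, s1] at s2
  simp at s2
  subst s2
  exact ⟨rfl, Subtype.ext (mul_left_cancel e.symm)⟩

theorem afun_inj (g g' : Γ) (y y' x : Ball Γ M) (h : afun M g y = some x)
    (h' : afun M g' y' = some x) : g = g' ∧ y = y' := by
  unfold afun at h h'
  split_ifs at h h' with h1 h2
  obtain rfl := Option.some_injective _ h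
  have e : (FreeGroup.of g')⁻¹ * y'.1 = (FreeGroup.of g)⁻¹ * y.1 :=
    congrArg Subtype.val (Option.some_injective _ h')
  have s1 := starts_inv_mul h1.1
  have s2 := starts_inv_mul h2.1
  rw [e, starts, s1] at s2
  simp at s2
  subst s2
  exact ⟨rfl, Subtype.ext (mul_left_cancel e.symm)⟩

theorem qfun_inj (g g' : Γ) (y y' x : Ball Γ M) (h : qfun M g y = some x)
    (h' : qfun M g' y' = some x) : g = g' ∧ y = y' := by
  unfold qfun at h h'
  split_ifs at h h' with h1 h2
  obtain rfl := Option.some_injective _ h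
  obtain rfl := Option.some_injective _ h'
  rw [starts, h1] at h2
  simp at h2
  exact ⟨h2, rfl⟩

theorem pmat_split (g : Γ) :
    pmat (pfun M g) = pmat (cfun M g) + (pmat (afun M g)).conjTranspose := by
  ext y x
  simp only [Matrix.add_apply, Matrix.conjTranspose_apply, pmat, Matrix.of_apply]
  have hP : pfun M g x = some y ↔ FreeGroup.of g * x.1 = y.1 := by
    unfold pfun
    split_ifs with h
    · simp [Subtype.ext_iff]
    · simp only [false_iff]
      exact fun e => h (e ▸ y.2)
  have hC : cfun M g x = some y ↔ FreeGroup.of g * x.1 = y.1 ∧ ¬starts false g x.1 := by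
    unfold cfun
    split_ifs with h
    · simp [Subtype.ext_iff, h.1]
    · simp only [false_iff, not_and, not_not]
      intro e
      by_contra hs
      exact h ⟨hs, by rw [← norm_of_mul hs, e]; exact y.2⟩
  have hA : afun M g y = some x ↔ FreeGroup.of g * x.1 = y.1 ∧ starts false g x.1 := by
    unfold afun
    split_ifs with h
    · simp only [Option.some.injEq, Subtype.ext_iff, inv_mul_eq_iff_eq_mul]
      constructor
      · intro e
        refine ⟨e.symm, ?_⟩
        have := starts_inv_mul h.1
        rwa [e, inv_mul_cancel_left] at this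
      · exact fun e => e.1.symm
    · simp only [false_iff, not_and]
      intro e hs
      have hns : ¬starts true g y.1 := e ▸ not_starts_true_of_mul hs
      refine h ⟨hns, ?_⟩
      rw [← norm_inv_mul hns, ← e, inv_mul_cancel_left]
      exact x.2
  by_cases hs : starts false g x.1 <;> by_cases he : FreeGroup.of g * x.1 = y.1 <;>
    simp [hP, hC, hA, hs, he]

/-- The element `∑_{g ≠ h} g⁻¹ h ⊗ a_gᴴ a_h`. -/
def Wel {n n' : Type} [Fintype n] [DecidableEq n] [Fintype n'] (a : Γ → Matrix n' n ℂ) :
    MonoidAlgebra (Matrix n n ℂ) (FreeGroup Γ) :=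
  ∑ g, ∑ h, MonoidAlgebra.single ((FreeGroup.of g)⁻¹ * FreeGroup.of h)
    (if g = h then 0 else (a g).conjTranspose * a h)

/-- All words in the support have length at most `L`. -/
def Short {n : Type} [Fintype n] [DecidableEq n] (L : ℕ)
    (x : MonoidAlgebra (Matrix n n ℂ) (FreeGroup Γ)) : Prop :=
  ∀ w ∈ x.coeff.support, FreeGroup.norm w ≤ L

variable {n n' : Type} [Fintype n] [DecidableEq n] [Fintype n'] [DecidableEq n']
  (a : Γ → Matrix n' n ℂ)

theorem short_wel : Short 2 (Wel a) := by
  intro w hw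
  rw [Wel, MonoidAlgebra.coeff_sum] at hw
  obtain ⟨g, -, hg⟩ := Finset.mem_biUnion.1 (Finsupp.support_finsetSum hw)
  rw [MonoidAlgebra.coeff_sum] at hg
  obtain ⟨h, -, hh⟩ := Finset.mem_biUnion.1 (Finsupp.support_finsetSum hg)
  rw [MonoidAlgebra.coeff_single] at hh
  rw [Finset.mem_singleton.1 (Finsupp.support_single_subset hh)]
  exact (FreeGroup.norm_mul_le _ _).trans (by simp)

theorem short_pow (j : ℕ) : Short (2 * j) (Wel a ^ j) := by
  induction j with
  | zero =>
    intro w hw
    rw [pow_zero, MonoidAlgebra.one_def, MonoidAlgebra.coeff_single] at hw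
    rw [Finset.mem_singleton.1 (Finsupp.support_single_subset hw)]
    simp
  | succ j ih =>
    intro w hw
    rw [pow_succ'] at hw
    obtain ⟨u, hu, v, hv, rfl⟩ :=
      Finset.mem_mul.1 (MonoidAlgebra.support_coeff_mul_subset _ _ hw)
    calc FreeGroup.norm (u * v) ≤ _ := FreeGroup.norm_mul_le u v
      _ ≤ 2 + 2 * j := add_le_add (short_wel a u hu) (ih v hv)
      _ = _ := by ring

theorem Phi_wel {X : Type*} [Fintype X] [DecidableEq X] (π : FreeGroup Γ →* Equiv.Perm X) :
    Phi π (Wel a) = ∑ g, ∑ h, permHom (π ((FreeGroup.of g)⁻¹ * FreeGroup.of h)) ⊗ₖ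
      (if g = h then 0 else (a g).conjTranspose * a h) := by
  simp [Wel, map_sum, Phi_single]

/-- The truncated operator `λ ⊗ a`. -/
def opC : Matrix (Ball Γ M × n') (Ball Γ M × n) ℂ := ∑ g, pmat (cfun M g) ⊗ₖ a g

/-- The adjoint of the annihilation part. -/
def opA : Matrix (Ball Γ M × n) (Ball Γ M × n') ℂ :=
  ∑ g, pmat (afun M g) ⊗ₖ (a g).conjTranspose

/-- The part removed from the creation part. -/
def opQ : Matrix (Ball Γ M × n) (Ball Γ M × n') ℂ :=
  ∑ g, pmat (qfun M g) ⊗ₖ (a g).conjTranspose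

/-- The truncation of `Wel a`. -/
def opW : Matrix (Ball Γ M × n) (Ball Γ M × n) ℂ :=
  (opC M a).conjTranspose * (opA M a).conjTranspose + opA M a * opC M a +
    opA M a * (opA M a).conjTranspose - opQ M a * (opQ M a).conjTranspose

theorem norm_opW :
    ‖opW M a‖ ≤ 2 * Real.sqrt (‖∑ g, (a g).conjTranspose * a g‖ * ‖∑ g, a g * (a g).conjTranspose‖) +
      2 * ‖∑ g, a g * (a g).conjTranspose‖ := by
  set S := ‖∑ g, (a g).conjTranspose * a g‖
  set C := ‖∑ g, a g * (a g).conjTranspose‖
  have hC : ‖opC M a‖ ≤ Real.sqrt S := Real.le_sqrt_of_sq_le (norm_pmat_sum _ (cfun_inj M) a)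
  have hA : ‖opA M a‖ ≤ Real.sqrt C := Real.le_sqrt_of_sq_le (by
    have h := norm_pmat_sum _ (afun_inj M) fun g => (a g).conjTranspose
    simpa only [opA, Matrix.conjTranspose_conjTranspose] using h)
  have hQ : ‖opQ M a‖ ≤ Real.sqrt C := Real.le_sqrt_of_sq_le (by
    have h := norm_pmat_sum _ (qfun_inj M) fun g => (a g).conjTranspose
    simpa only [opQ, Matrix.conjTranspose_conjTranspose] using h)
  have hsq : Real.sqrt C * Real.sqrt C = C := Real.mul_self_sqrt (norm_nonneg _)
  have t1 : ‖(opC M a).conjTranspose * (opA M a).conjTranspose‖ ≤ Real.sqrt S * Real.sqrt C := by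
    refine (Matrix.l2_opNorm_mul _ _).trans ?_
    rw [Matrix.l2_opNorm_conjTranspose, Matrix.l2_opNorm_conjTranspose]
    exact mul_le_mul hC hA (norm_nonneg _) (Real.sqrt_nonneg _)
  have t2 : ‖opA M a * opC M a‖ ≤ Real.sqrt S * Real.sqrt C := by
    refine (Matrix.l2_opNorm_mul _ _).trans ?_
    rw [mul_comm]
    exact mul_le_mul hC hA (norm_nonneg _) (Real.sqrt_nonneg _)
  have t3 : ‖opA M a * (opA M a).conjTranspose‖ ≤ C := by
    refine (Matrix.l2_opNorm_mul _ _).trans ?_
    rw [Matrix.l2_opNorm_conjTranspose, ← hsq]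
    exact mul_le_mul hA hA (norm_nonneg _) (Real.sqrt_nonneg _)
  have t4 : ‖opQ M a * (opQ M a).conjTranspose‖ ≤ C := by
    refine (Matrix.l2_opNorm_mul _ _).trans ?_
    rw [Matrix.l2_opNorm_conjTranspose, ← hsq]
    exact mul_le_mul hQ hQ (norm_nonneg _) (Real.sqrt_nonneg _)
  refine (norm_sub_le _ _).trans ((add_le_add (norm_add₃_le) le_rfl).trans ?_)
  rw [Real.sqrt_mul (norm_nonneg _)]
  linarith

theorem pmat_mul (f f' : Ball Γ M → Option (Ball Γ M)) (y x : Ball Γ M) :
    ((pmat f).conjTranspose * pmat f') y x =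
      if f' x ≠ none ∧ f y = f' x then 1 else 0 := by
  rw [Matrix.mul_apply]
  cases h : f' x with
  | none => simp [pmat, h]
  | some z =>
    rw [Finset.sum_eq_single z (fun w _ hw => by simp [pmat, h, Ne.symm hw]) (by simp)]
    simp [pmat, h]

/-- The truncation agrees with the action on words away from the boundary. -/
theorem opW_eq {x : Ball Γ M} (hx : FreeGroup.norm x.1 + 2 ≤ M) (z : Ball Γ M) (α β : n) :
    opW M a (z, α) (x, β) = Phi (sigma M) (Wel a) (z, α) (x, β) := by
  let T : Matrix (Ball Γ M × n') (Ball Γ M × n) ℂ := ∑ g, pmat (pfun M g) ⊗ₖ a g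
  have hT : T = opC M a + (opA M a).conjTranspose := by
    simp [T, opC, opA, Matrix.conjTranspose_sum, Matrix.conjTranspose_kronecker, pmat_split,
      Matrix.add_kronecker, Finset.sum_add_distrib]
  have hsplit : opW M a = T.conjTranspose * T - (opC M a).conjTranspose * opC M a -
      opQ M a * (opQ M a).conjTranspose := by
    rw [opW, hT, Matrix.conjTranspose_add, Matrix.conjTranspose_conjTranspose]
    simp only [Matrix.add_mul, Matrix.mul_add]
    abel
  have hQh : (opQ M a).conjTranspose = ∑ g, pmat (qfun M g) ⊗ₖ a g := by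
    have hd : ∀ g : Γ, (pmat (qfun M g)).conjTranspose = pmat (qfun M g) := fun g => by
      ext y w
      simp only [pmat, qfun, Matrix.conjTranspose_apply, Matrix.of_apply]
      by_cases h : w = y
      · subst h; by_cases hs : starts false g w.1 <;> simp [hs]
      · split_ifs <;> simp_all
    simp [opQ, Matrix.conjTranspose_sum, Matrix.conjTranspose_kronecker, hd]
  have hQQ : opQ M a * (opQ M a).conjTranspose =
      (opQ M a).conjTranspose.conjTranspose * (opQ M a).conjTranspose := by
    rw [Matrix.conjTranspose_conjTranspose]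
  have key : ∀ (f : Γ → Ball Γ M → Option (Ball Γ M)),
      ((∑ g, pmat (f g) ⊗ₖ a g).conjTranspose * ∑ g, pmat (f g) ⊗ₖ a g) (z, α) (x, β) =
        ∑ g, ∑ h, (if f h x ≠ none ∧ f g z = f h x then (1 : ℂ) else 0) *
          ((a g).conjTranspose * a h) α β := fun f => by
    simp only [Matrix.conjTranspose_sum, Matrix.conjTranspose_kronecker,
      Matrix.sum_mul, Matrix.mul_sum, ← Matrix.mul_kronecker_mul, Matrix.sum_apply,
      Matrix.kroneckerMap_apply, pmat_mul]
    exact Finset.sum_comm
  rw [hsplit, Matrix.sub_apply, Matrix.sub_apply, hQQ, hQh, key, opC, key, key, Phi_wel,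
    Matrix.sum_apply, ← Finset.sum_sub_distrib, ← Finset.sum_sub_distrib]
  refine Finset.sum_congr rfl fun g _ => ?_
  rw [Matrix.sum_apply, ← Finset.sum_sub_distrib, ← Finset.sum_sub_distrib]
  refine Finset.sum_congr rfl fun h _ => ?_
  have hhx : FreeGroup.norm (FreeGroup.of h * x.1) ≤ M := by
    have := norm_of_mul_le h x.1; omega
  have h0 : FreeGroup.norm ((FreeGroup.of g)⁻¹ * (FreeGroup.of h * x.1)) ≤ M := by
    have := FreeGroup.norm_mul_le (FreeGroup.of g)⁻¹ (FreeGroup.of h * x.1)
    have := norm_of_mul_le h x.1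
    simp only [FreeGroup.norm_inv_eq, FreeGroup.norm_of] at *
    omega
  have hσ : sigma M ((FreeGroup.of g)⁻¹ * FreeGroup.of h) x =
      ⟨(FreeGroup.of g)⁻¹ * (FreeGroup.of h * x.1), h0⟩ := by
    rw [map_mul, Equiv.Perm.mul_apply, sigma_of M hhx, sigma_inv M h0]
  have hP : (pfun M h x ≠ none ∧ pfun M g z = pfun M h x) ↔
      (FreeGroup.of g)⁻¹ * (FreeGroup.of h * x.1) = z.1 := by
    rw [inv_mul_eq_iff_eq_mul]
    simp only [pfun, dif_pos hhx, ne_eq, reduceCtorEq, not_false_eq_true, true_and]
    split_ifs with hz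
    · simp [Subtype.ext_iff, eq_comm]
    · simp only [false_iff]
      exact fun e => hz (e ▸ hhx)
  rw [Matrix.kroneckerMap_apply, permHom_apply, hσ]
  by_cases hgh : g = h
  · subst hgh
    have hgz : (FreeGroup.of g)⁻¹ * (FreeGroup.of g * x.1) = x.1 := by simp
    have hC : (cfun M g x ≠ none ∧ cfun M g z = cfun M g x) ↔ x = z ∧ ¬starts false g x.1 := by
      constructor
      · rintro ⟨h1, h2⟩
        obtain ⟨w, hw⟩ := Option.ne_none_iff_exists'.1 h1
        refine ⟨((cfun_inj M g g z x w (h2.trans hw) hw).2).symm, fun hs => h1 ?_⟩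
        rw [cfun, dif_neg fun hh => hh.1 hs]
      · rintro ⟨rfl, hs⟩
        exact ⟨by rw [cfun, dif_pos ⟨hs, by omega⟩]; simp, rfl⟩
    have hQ : (qfun M g x ≠ none ∧ qfun M g z = qfun M g x) ↔ x = z ∧ starts false g x.1 := by
      constructor
      · rintro ⟨h1, h2⟩
        obtain ⟨w, hw⟩ := Option.ne_none_iff_exists'.1 h1
        refine ⟨((qfun_inj M g g z x w (h2.trans hw) hw).2).symm, by_contra fun hs => h1 ?_⟩
        rw [qfun, if_neg hs]
      · rintro ⟨rfl, hs⟩
        exact ⟨by rw [qfun, if_pos hs]; simp, rfl⟩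
    simp only [hP, hC, hQ, hgz, if_true, Matrix.zero_apply, mul_zero, Subtype.ext_iff]
    by_cases hz : x.1 = z.1
    · obtain rfl : x = z := Subtype.ext hz
      by_cases hs : starts false g x.1 <;> simp [hs]
    · simp [hz]
  · have hC : ¬(cfun M h x ≠ none ∧ cfun M g z = cfun M h x) := fun ⟨h1, h2⟩ => by
      obtain ⟨w, hw⟩ := Option.ne_none_iff_exists'.1 h1
      exact hgh (cfun_inj M g h z x w (h2.trans hw) hw).1
    have hQ : ¬(qfun M h x ≠ none ∧ qfun M g z = qfun M h x) := fun ⟨h1, h2⟩ => by
      obtain ⟨w, hw⟩ := Option.ne_none_iff_exists'.1 h1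
      exact hgh (qfun_inj M g h z x w (h2.trans hw) hw).1
    simp only [hP, if_neg hC, if_neg hQ, if_neg hgh, zero_mul, sub_zero]
    simp only [Subtype.ext_iff]

end Ball

variable {Γ : Type} [Fintype Γ] [DecidableEq Γ] {n n' : Type} [Fintype n] [DecidableEq n]
  [Fintype n'] [DecidableEq n']

/-- The moment bound. -/
theorem moment_le (a : Γ → Matrix n' n ℂ) (j : ℕ) (α : n) :
    ‖(Wel a ^ j).coeff 1 α α‖ ≤
      (2 * Real.sqrt (‖∑ g, (a g).conjTranspose * a g‖ * ‖∑ g, a g * (a g).conjTranspose‖) +
        2 * ‖∑ g, a g * (a g).conjTranspose‖) ^ j := by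
  set M := 2 * j + 2
  have hpow : ∀ i, i ≤ j → ∀ (z : Ball Γ M) (μ : n),
      (opW M a ^ i) (z, μ) (base M, α) = Phi (sigma M) (Wel a ^ i) (z, μ) (base M, α) := by
    intro i
    induction i with
    | zero => intro _ z μ; simp
    | succ i ih =>
      intro hi z μ
      rw [pow_succ', pow_succ', map_mul, Matrix.mul_apply, Matrix.mul_apply]
      refine Finset.sum_congr rfl fun y _ => ?_
      obtain ⟨y, ν⟩ := y
      rw [ih (by omega)]
      by_cases hy : FreeGroup.norm y.1 ≤ 2 * i
      · rw [opW_eq M a (by omega)]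
      · rw [Phi_zero_of (sigma M) _ (fun w hw => ?_), mul_zero, mul_zero]
        have hw' := short_pow a i w hw
        rw [sigma_base M w (by omega)]
        exact fun e => hy (e ▸ hw')
  have h1 : (Wel a ^ j).coeff 1 α α = (opW M a ^ j) (base M, α) (base M, α) := by
    rw [hpow j le_rfl, Phi_apply, Finset.sum_eq_single 1]
    · simp
    · intro w hw hw1
      have hw' := short_pow a j w hw
      rw [sigma_base M w (by omega), if_neg]
      exact fun e => hw1 (congrArg Subtype.val e)
    · intro h1
      simp [Finsupp.notMem_support_iff.1 h1]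
  rw [h1]
  refine (entry_le _ _ _).trans ?_
  rcases Nat.eq_zero_or_pos j with rfl | hj
  · rw [pow_zero, pow_zero]
    have : Nonempty (Ball Γ M × n) := ⟨(base M, α)⟩
    exact le_of_eq CStarRing.norm_one
  · exact (norm_pow_le' _ hj).trans (pow_le_pow_left₀ (norm_nonneg _) (norm_opW M a) j)

end

end Vale.P095.Lossy.Free
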