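import Vale.Agent.P095.Lossy.Pins
import Vale.Agent.P095.SI.Local
import Vale.Agent.P101.ZStab.Tree

/-!
# P095: lossy comparison from the modules

Small traces give `d₁` copies of `(e - ε)₊` below `D₁` units with `16 q D₁ ≤ 2 d₁`, large traces `d₂`
units below `q D₂` copies of `a` with `D₂ ≤ 2 d₂`; so `d₁ d₂` copies of `(e - ε)₊` lie below a
quarter as many copies of `a`, and almost unperforation applies.
-/

open scoped Kronecker Matrix.Norms.L2Operator

namespace Vale.P095.Lossy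

open Vale.P095.SI Vale.P095.Tracial

noncomputable section

attribute [local instance] CStarAlgebra.spectralOrder CStarAlgebra.spectralOrderedRing

section General

variable {A : Type*} [CStarAlgebra A]

/-- A positive element below another is approximately its conjugate. -/
theorem below_conj {H P : A} (hH : 0 ≤ H) (hHP : H ≤ P) {η : ℝ} (hη : 0 < η) :
    ∃ r : A, ‖star r * P * r - H‖ ≤ η := by
  have hP : 0 ≤ P := hH.trans hHP
  have hsp : ∀ t ∈ spectrum ℝ P, 0 ≤ t := fun t ht => spectrum_nonneg_of_nonneg hP ht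
  have hden : ∀ t : ℝ, 0 < max t 0 + η := fun t => by linarith [le_max_right t 0]
  set q : A := cfc (fun t : ℝ => (√(max t 0 + η))⁻¹) P with hq
  set m : A := cfc (fun t : ℝ => √(η / (max t 0 + η))) P with hm
  have hcq : Continuous fun t : ℝ => (√(max t 0 + η))⁻¹ :=
    ((continuous_id.max continuous_const).add continuous_const).sqrt.inv₀ fun t =>
      (Real.sqrt_pos.2 (hden t)).ne'
  have hcm : Continuous fun t : ℝ => √(η / (max t 0 + η)) :=
    (continuous_const.div ((continuous_id.max continuous_const).add continuous_const) fun t =>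
      (hden t).ne').sqrt
  have hid : cfc (fun t : ℝ => t) P = P := cfc_id' ℝ P hP.isSelfAdjoint
  have hqPq : q * P * q = 1 - m * m := by
    conv_lhs => arg 1; arg 2; rw [← hid]
    rw [hq, hm, ← cfc_mul _ (fun t : ℝ => t) P hcq.continuousOn (by fun_prop),
      ← cfc_mul _ _ P (hcq.fun_mul continuous_id').continuousOn hcq.continuousOn,
      ← cfc_mul _ _ P hcm.continuousOn hcm.continuousOn, ← cfc_const_one ℝ P hP.isSelfAdjoint,
      ← cfc_sub _ _ P (by fun_prop) (hcm.fun_mul hcm).continuousOn]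
    refine cfc_congr fun t ht => ?_
    have h0 := hsp t ht
    rw [Real.mul_self_sqrt (div_nonneg hη.le (hden t).le), mul_right_comm, ← mul_inv,
      Real.mul_self_sqrt (hden t).le, max_eq_left h0]
    have : t + η ≠ 0 := by linarith
    field_simp
    ring
  set S : A := CFC.sqrt H with hS
  have hSsa : star S = S := (CFC.sqrt_nonneg H).isSelfAdjoint.star_eq
  have hSS : S * S = H := CFC.sqrt_mul_sqrt_self H hH
  have hqsa : star q = q := (cfc_predicate _ P : IsSelfAdjoint _).star_eq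
  have hmsa : star m = m := (cfc_predicate _ P : IsSelfAdjoint _).star_eq
  refine ⟨q * S, ?_⟩
  have e : star (q * S) * P * (q * S) - H = -(star (m * S) * (m * S)) := by
    rw [star_mul, star_mul, hSsa, hqsa, hmsa]
    calc S * q * P * (q * S) - H = S * (q * P * q) * S - H := by simp only [mul_assoc]
      _ = _ := by rw [hqPq, mul_sub, mul_one, sub_mul, hSS]; simp only [mul_assoc]; abel
  rw [e, norm_neg, CStarRing.norm_star_mul_self, ← CStarRing.norm_self_mul_star, star_mul, hSsa,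
    hmsa, mul_assoc, ← mul_assoc S, hSS, ← mul_assoc]
  have h1 : m * H * m ≤ m * P * m :=
    (cfc_predicate _ P : IsSelfAdjoint m).conjugate_le_conjugate hHP
  refine (CStarAlgebra.norm_le_norm_of_nonneg_of_le
    ((cfc_predicate _ P : IsSelfAdjoint m).conjugate_nonneg hH) h1).trans ?_
  conv_lhs => arg 1; arg 1; arg 2; rw [← hid]
  rw [hm, ← cfc_mul _ (fun t : ℝ => t) P hcm.continuousOn (by fun_prop),
    ← cfc_mul _ _ P (hcm.fun_mul continuous_id').continuousOn hcm.continuousOn]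
  refine norm_cfc_le hη.le fun t ht => ?_
  have h0 := hsp t ht
  rw [mul_right_comm, Real.mul_self_sqrt (div_nonneg hη.le (hden t).le), max_eq_left h0,
    Real.norm_eq_abs, abs_of_nonneg (by positivity), div_mul_eq_mul_div,
    div_le_iff₀ (by linarith)]
  nlinarith

variable {R d m : ℕ}

/-- The amplification. -/
def dg (d : ℕ) (e : A) : CStarMatrix (Fin d) (Fin d) A :=
  CStarMatrix.ofMatrix (Matrix.diagonal fun _ => e)

theorem dg_apply (e : A) (s t : Fin d) : dg d e s t = if s = t then e else 0 :=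
  Matrix.diagonal_apply ..

/-- The amplification as a homomorphism. -/
def dgHom (d : ℕ) : A →⋆ₐ[ℂ] CStarMatrix (Fin d) (Fin d) A where
  toFun := dg d
  map_one' := by
    ext s t
    rw [dg_apply, CStarMatrix.one_apply]
  map_mul' e f := by
    ext s t
    simp only [CStarMatrix.mul_apply, dg_apply]
    rw [Finset.sum_eq_single s (fun u _ hu => by simp [Ne.symm hu]) (by simp), if_pos rfl]
    split_ifs <;> simp
  map_zero' := by
    ext s t
    simp [dg_apply]
  map_add' e f := by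
    ext s t
    simp only [CStarMatrix.add_apply, dg_apply]
    split_ifs <;> simp
  commutes' c := by
    ext s t
    rw [dg_apply, CStarMatrix.algebraMap_apply]
  map_star' e := by
    ext s t
    simp only [CStarMatrix.star_apply, dg_apply]
    rcases eq_or_ne s t with h | h
    · simp [h]
    · simp [h, h.symm]

theorem dgHom_apply (e : A) : dgHom d e = dg d e := rfl

/-- The columns `Y r s = ∑ G i r s • x i`. -/
def colMat (G : Fin m → Matrix (Fin R) (Fin d) ℂ) (x : Fin m → A) (r : Fin R) (s : Fin d) : A :=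
  ∑ i, G i r s • x i

/-- Their Gram matrix. -/
def gram (Y : Fin R → Fin d → A) : CStarMatrix (Fin d) (Fin d) A :=
  CStarMatrix.ofMatrix fun s t => ∑ r, star (Y r s) * Y r t

theorem gram_apply (Y : Fin R → Fin d → A) (s t : Fin d) :
    gram Y s t = ∑ r, star (Y r s) * Y r t := rfl

theorem gram_sub (G : Fin m → Matrix (Fin R) (Fin d) ℂ) (x : Fin m → A) :
    gram (colMat G x) - dg d (∑ i, star (x i) * x i) = pulled G x := by
  ext s t
  rw [CStarMatrix.sub_apply, gram_apply, dg_apply]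
  show _ = ∑ i, ∑ j, gramDefect G i j s t • (star (x i) * x j)
  have h1 : ∀ i j, gramDefect G i j s t • (star (x i) * x j) =
      (∑ r, star (G i r s) * G j r t) • (star (x i) * x j) -
        if i = j then (if s = t then star (x i) * x j else 0) else 0 := by
    intro i j
    rw [gramDefect, Matrix.sub_apply, sub_smul, Matrix.mul_apply]
    congr 1
    split_ifs <;> simp_all [Matrix.one_apply]
  simp only [h1, Finset.sum_sub_distrib, Finset.sum_ite_eq, Finset.mem_univ, if_true]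
  congr 1
  · simp only [colMat, star_sum, star_smul, Finset.sum_mul_sum, Finset.sum_smul, smul_mul_smul_comm]
    rw [Finset.sum_comm]
    refine Finset.sum_congr rfl fun i _ => ?_
    rw [Finset.sum_comm]
  · split_ifs <;> simp

theorem isSelfAdjoint_gram (Y : Fin R → Fin d → A) : IsSelfAdjoint (gram Y) := by
  refine CStarMatrix.ext_iff.1 fun s t => ?_
  simp [CStarMatrix.star_apply, gram_apply, star_sum]

/-- Subequivalence of copies from an estimate on a Gram matrix. -/
theorem copiesLE_of_gram (Y : Fin R → Fin d → A) {e b p a' : A} (hY : ∀ r s, ∃ y, Y r s = a' * y)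
    (hp : star p * b * p = star a' * a') (g : ∀ ε : ℝ, 0 < ε →
      ∃ g : CStarMatrix (Fin d) (Fin d) A, ‖star g * gram Y * g - dg d e‖ ≤ ε) :
    CopiesLE d e R b := by
  intro ε hε
  obtain ⟨g, hg⟩ := g ε hε
  choose y hy using hY
  refine ⟨fun l t => p * ∑ u, y l u * g u t, fun s t => ?_⟩
  refine le_trans (b := ‖(star g * gram Y * g - dg d e) s t‖) (le_of_eq ?_)
    (CStarMatrix.norm_entry_le_norm.trans hg)
  congr 1
  rw [CStarMatrix.sub_apply, dg_apply]
  congr 1
  have e1 : ∀ l, star (p * ∑ u, y l u * g u s) * b * (p * ∑ u, y l u * g u t) =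
      ∑ u, ∑ w, star (g u s) * (star (Y l u) * Y l w) * g w t := by
    intro l
    rw [star_mul]
    calc star (∑ u, y l u * g u s) * star p * b * (p * ∑ u, y l u * g u t)
        = star (∑ u, y l u * g u s) * (star p * b * p) * ∑ u, y l u * g u t := by
          simp only [mul_assoc]
      _ = star (a' * ∑ u, y l u * g u s) * (a' * ∑ u, y l u * g u t) := by
          rw [hp, star_mul]; simp only [mul_assoc]
      _ = _ := by
          rw [Finset.mul_sum, Finset.mul_sum, star_sum, Finset.sum_mul_sum]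
          simp only [hy, star_mul, mul_assoc]
  simp only [e1]
  simp only [CStarMatrix.mul_apply, CStarMatrix.star_apply, gram_apply, Finset.mul_sum,
    Finset.sum_mul]
  rw [Finset.sum_comm]
  refine (Finset.sum_congr rfl fun u _ => Finset.sum_comm).trans ?_
  rw [Finset.sum_comm]

/-- Copies compose. -/
theorem CopiesLE.trans {K₁ j₁ K₂ j₂ : ℕ} {e a : A} (h₁ : CopiesLE K₁ e j₁ 1)
    (h₂ : CopiesLE K₂ 1 j₂ a) : CopiesLE (K₁ * K₂) e (j₁ * j₂) a := by
  intro ε hε
  obtain ⟨R₁, hR₁⟩ := h₁ (ε / 2) (half_pos hε)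
  obtain ⟨C, hC, hC0⟩ : ∃ C : ℝ, (∀ s t, ∑ l, ‖star (R₁ l s)‖ * ‖R₁ l t‖ ≤ C) ∧ 0 ≤ C :=
    ⟨∑ s, ∑ t, ∑ l, ‖star (R₁ l s)‖ * ‖R₁ l t‖, fun s t =>
      le_trans (Finset.single_le_sum (f := fun t => ∑ l, ‖star (R₁ l s)‖ * ‖R₁ l t‖)
        (fun _ _ => Finset.sum_nonneg fun _ _ => by positivity) (Finset.mem_univ t))
        (Finset.single_le_sum (f := fun s => ∑ t, ∑ l, ‖star (R₁ l s)‖ * ‖R₁ l t‖)
          (fun _ _ => Finset.sum_nonneg fun _ _ => Finset.sum_nonneg fun _ _ => by positivity)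
          (Finset.mem_univ s)),
      Finset.sum_nonneg fun _ _ => Finset.sum_nonneg fun _ _ => Finset.sum_nonneg fun _ _ => by
        positivity⟩
  obtain ⟨R₂, hR₂⟩ := h₂ (ε / (2 * (C + 1))) (by positivity)
  refine ⟨fun L S => R₂ (finProdFinEquiv.symm L).2 (finProdFinEquiv.symm S).2 *
    R₁ (finProdFinEquiv.symm L).1 (finProdFinEquiv.symm S).1, fun S T => ?_⟩
  obtain ⟨⟨s₁, s₂⟩, rfl⟩ := finProdFinEquiv.surjective S
  obtain ⟨⟨t₁, t₂⟩, rfl⟩ := finProdFinEquiv.surjective T
  rw [← finProdFinEquiv.sum_comp, Fintype.sum_prod_type]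
  simp only [Equiv.symm_apply_apply, star_mul, finProdFinEquiv.injective.eq_iff, Prod.ext_iff]
  have e1 : ∀ l₁, ∑ l₂, star (R₁ l₁ s₁) * star (R₂ l₂ s₂) * a * (R₂ l₂ t₂ * R₁ l₁ t₁) =
      star (R₁ l₁ s₁) * (if s₂ = t₂ then 1 else 0) * R₁ l₁ t₁ + star (R₁ l₁ s₁) *
        ((∑ l₂, star (R₂ l₂ s₂) * a * R₂ l₂ t₂) - if s₂ = t₂ then 1 else 0) * R₁ l₁ t₁ := by
    intro l₁
    rw [← add_mul, ← mul_add, add_sub_cancel, Finset.mul_sum, Finset.sum_mul]
    simp only [mul_assoc]
  simp only [e1, Finset.sum_add_distrib]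
  have e2 : ‖(∑ l₁, star (R₁ l₁ s₁) * (if s₂ = t₂ then (1 : A) else 0) * R₁ l₁ t₁) -
      (if s₁ = t₁ ∧ s₂ = t₂ then e else 0)‖ ≤ ε / 2 := by
    by_cases h : s₂ = t₂
    · simpa [h] using hR₁ s₁ t₁
    · simpa [h] using (half_pos hε).le
  have e3 : ‖∑ l₁, star (R₁ l₁ s₁) *
      ((∑ l₂, star (R₂ l₂ s₂) * a * R₂ l₂ t₂) - if s₂ = t₂ then 1 else 0) * R₁ l₁ t₁‖ ≤ ε / 2 := by
    refine (norm_sum_le _ _).trans ((Finset.sum_le_sum fun l _ =>
      (norm_mul₃_le).trans (le_of_eq (mul_right_comm _ _ _))).trans ?_)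
    refine (Finset.sum_le_sum fun l _ => mul_le_mul_of_nonneg_left (hR₂ s₂ t₂) (by positivity)).trans ?_
    rw [← Finset.sum_mul, ← mul_div_assoc, div_le_div_iff₀ (by positivity) two_pos]
    nlinarith [hC s₁ t₁]
  calc _ ≤ _ := le_of_eq (by congr 1; abel)
    _ ≤ ε / 2 + ε / 2 := (norm_add_le _ _).trans (add_le_add e2 e3)
    _ = ε := add_halves ε

/-- A scaled element below the amplification gives conjugators. -/
theorem exists_conj_le {T u H : CStarMatrix (Fin d) (Fin d) A} {c : ℝ} (hc : 0 < c)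
    (hH : 0 ≤ H) (hle : c • H ≤ star u * T * u) {ε : ℝ} (hε : 0 < ε) :
    ∃ g : CStarMatrix (Fin d) (Fin d) A, ‖star g * T * g - H‖ ≤ ε := by
  obtain ⟨r, hr⟩ := below_conj (smul_nonneg hc.le hH) hle (mul_pos hc hε)
  refine ⟨(√c⁻¹) • (u * r), ?_⟩
  have e : star ((√c⁻¹) • (u * r)) * T * ((√c⁻¹) • (u * r)) - H =
      c⁻¹ • (star r * (star u * T * u) * r - c • H) := by
    rw [star_smul, star_trivial, smul_mul_assoc, smul_mul_assoc, mul_smul_comm, smul_smul,
      Real.mul_self_sqrt (inv_nonneg.2 hc.le), smul_sub, smul_smul, inv_mul_cancel₀ hc.ne',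
      one_smul, star_mul]
    simp only [mul_assoc]
  have e' : algebraMap ℝ (CStarMatrix (Fin d) (Fin d) A) c⁻¹ =
      algebraMap ℂ (CStarMatrix (Fin d) (Fin d) A) ((c⁻¹ : ℝ) : ℂ) := by
    ext i j
    rw [CStarMatrix.algebraMap_apply, CStarMatrix.algebraMap_apply]
    simp only [Algebra.algebraMap_eq_smul_one, Complex.coe_smul]
  rw [e, Algebra.smul_def c⁻¹, e', ← Algebra.smul_def, norm_smul, Complex.norm_real,
    Real.norm_of_nonneg (inv_nonneg.2 hc.le), inv_mul_le_iff₀ hc]
  exact hr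

end General

section Main

variable {A : Type} [CStarAlgebra A]

/-- Small traces. -/
theorem upper_copies (hM : MatStmt) (hP : PullStmt) (hU : UpperStmt) (hA : HasCPAP A) {k : ℕ}
    (hk : 0 < k) {ε : ℝ} (hε : 0 < ε) :
    ∃ θ : ℝ, 0 < θ ∧ ∀ e : A, IsPos e → ‖e‖ ≤ 1 → (∀ τ : TracialState A, (τ.toLin e).re < θ) →
      ∃ D d : ℕ, 0 < D ∧ k * D ≤ 2 * d ∧
        CopiesLE d (cfc (fun r : ℝ => max 0 (r - ε)) e) D 1 := by
  obtain ⟨θ, hθ, hθk, hθε, hθs⟩ : ∃ θ : ℝ, 0 < θ ∧ 2 * θ * k ≤ 1 ∧ θ ≤ ε / 16 ∧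
      8 * √(2 * θ * k) ≤ ε / 4 := by
    refine ⟨min (min (1 / (2 * k)) (ε / 16)) ((ε / 32) ^ 2 / (2 * k)), by positivity, ?_,
      (min_le_left _ _).trans (min_le_right _ _), ?_⟩
    · have := (min_le_left (min (1 / (2 * (k : ℝ))) (ε / 16)) ((ε / 32) ^ 2 / (2 * k))).trans
        (min_le_left _ _)
      rw [le_div_iff₀ (by positivity)] at this
      linarith
    · have := min_le_right (min (1 / (2 * (k : ℝ))) (ε / 16)) ((ε / 32) ^ 2 / (2 * k))
      rw [le_div_iff₀ (by positivity)] at this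
      have h2 : √(2 * min (min (1 / (2 * (k : ℝ))) (ε / 16)) ((ε / 32) ^ 2 / (2 * k)) * k) ≤
          ε / 32 := (Real.sqrt_le_sqrt (by linarith)).trans_eq (Real.sqrt_sq (by positivity))
      linarith
  refine ⟨θ, hθ, fun e he he1 htr => ?_⟩
  obtain ⟨m, x, hx, hx'⟩ := hU A e he θ hθ htr θ hθ
  set lam : ℝ := √(1 + θ)⁻¹ with hlam
  have hl : lam * lam = (1 + θ)⁻¹ := Real.mul_self_sqrt (by positivity)
  have hl1 : (1 + θ)⁻¹ ≤ 1 := inv_le_one_of_one_le₀ (by linarith)
  set y : Fin m → A := fun i => lam • x i with hy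
  have hyy : ∑ i, star (y i) * y i = (1 + θ)⁻¹ • ∑ i, star (x i) * x i := by
    simp only [hy, star_smul, star_trivial, smul_mul_smul_comm, hl, ← Finset.smul_sum]
  have hyy' : ∑ i, y i * star (y i) = (1 + θ)⁻¹ • ∑ i, x i * star (x i) := by
    simp only [hy, star_smul, star_trivial, smul_mul_smul_comm, hl, ← Finset.smul_sum]
  have hS : ‖∑ i, star (x i) * x i‖ ≤ 1 + θ := by
    linarith [norm_le_insert' (∑ i, star (x i) * x i) e]
  have hy1 : ‖∑ i, star (y i) * y i‖ ≤ 1 := by
    rw [hyy, norm_smul, Real.norm_of_nonneg (by positivity), inv_mul_le_iff₀ (by positivity)]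
    linarith
  have hy2 : ‖∑ i, y i * star (y i)‖ ≤ 2 * θ := by
    rw [hyy', norm_smul, Real.norm_of_nonneg (by positivity)]
    calc _ ≤ 1 * (θ + θ) := mul_le_mul hl1 hx' (norm_nonneg _) zero_le_one
      _ = _ := by ring
  obtain ⟨D, d, G, hD, hDd, hG⟩ := hP hM A hA m y (2 * θ) k 1 hk one_pos (by positivity)
    (by exact_mod_cast hθk) hy1 hy2 θ hθ
  rw [Nat.cast_one, div_one] at hG
  refine ⟨1 * D, d, by omega, by simpa using hDd, ?_⟩
  refine copiesLE_of_gram (colMat G y) (a' := 1) (p := 1) (fun r s => ⟨_, (one_mul _).symm⟩)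
    (by simp) fun η hη => ?_
  have he0 := loc_nonneg he
  set T := gram (colMat G y) with hT
  have hnear : ‖T - dgHom d e‖ ≤ ε / 2 := by
    have h3 : ‖(∑ i, star (y i) * y i) - e‖ ≤ 2 * θ := by
      rw [hyy, show (1 + θ)⁻¹ • (∑ i, star (x i) * x i) - e =
        (1 + θ)⁻¹ • ((∑ i, star (x i) * x i) - e) - (θ * (1 + θ)⁻¹) • e by
          have : θ * (1 + θ)⁻¹ = 1 - (1 + θ)⁻¹ := by field_simp; ring
          rw [this, smul_sub, sub_smul, one_smul]; abel]
      refine (norm_sub_le _ _).trans ?_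
      rw [norm_smul, norm_smul, Real.norm_of_nonneg (by positivity),
        Real.norm_of_nonneg (by positivity)]
      have hi : (0 : ℝ) ≤ (1 + θ)⁻¹ := by positivity
      calc _ ≤ 1 * θ + θ * 1 * 1 :=
            add_le_add (mul_le_mul hl1 hx (norm_nonneg _) zero_le_one)
              (mul_le_mul (mul_le_mul_of_nonneg_left hl1 hθ.le) he1 (norm_nonneg _) (by linarith))
        _ = 2 * θ := by ring
    calc ‖T - dgHom d e‖ = ‖pulled G y + dgHom d ((∑ i, star (y i) * y i) - e)‖ := by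
          rw [← gram_sub, map_sub, ← dgHom_apply, ← hT]; congr 1; abel
      _ ≤ _ := (norm_add_le _ _).trans (add_le_add hG
          ((NonUnitalStarAlgHom.norm_apply_le _ _).trans h3))
      _ ≤ ε / 2 := by linarith
  have hlow : dgHom d e - algebraMap ℝ (CStarMatrix (Fin d) (Fin d) A) (ε / 2) ≤ T := by
    have h1 := ((isSelfAdjoint_gram (colMat G y)).sub
      (he0.isSelfAdjoint.map (dgHom d))).neg_algebraMap_norm_le_self
    have h2 := algebraMap_mono (CStarMatrix (Fin d) (Fin d) A) hnear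
    exact sub_le_iff_le_add'.2 (by
      have := (neg_le_neg h2).trans h1
      rwa [neg_le_sub_iff_le_add'] at this)
  set u : A := cfc (fun r : ℝ => √(max 0 (r - ε))) e with hu
  have husa : IsSelfAdjoint u := cfc_predicate _ e
  refine exists_conj_le (u := dgHom d u) (half_pos hε) ?_ ?_ hη
  · rw [← dgHom_apply]
    exact map_nonneg (dgHom d) (cfc_nonneg fun r _ => le_max_left _ _)
  · rw [← map_star, husa.star_eq, ← dgHom_apply]
    refine le_trans ?_ ((husa.map (dgHom d)).conjugate_le_conjugate hlow)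
    have e1 : dgHom d u * (dgHom d e - algebraMap ℝ _ (ε / 2)) * dgHom d u =
        dgHom d (u * (e - algebraMap ℝ A (ε / 2)) * u) := by
      rw [map_mul, map_mul, map_sub]
      congr 3
    rw [e1]
    refine le_trans (le_of_eq ((dgHom d).map_smul_of_tower (ε / 2) _).symm) ?_
    refine OrderHomClass.mono (dgHom d) ?_
    rw [hu, ← cfc_const (ε / 2) e he0.isSelfAdjoint,
      show e - cfc (fun _ : ℝ => ε / 2) e = cfc (fun r : ℝ => r - ε / 2) e by
        rw [cfc_sub (fun r : ℝ => r) (fun _ => ε / 2) e, cfc_id' ℝ e he0.isSelfAdjoint],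
      ← cfc_const_mul _ _ e (by fun_prop), ← cfc_mul _ _ e (by fun_prop) (by fun_prop),
      ← cfc_mul _ _ e (by fun_prop) (by fun_prop)]
    refine cfc_mono (fun r hr => ?_) (by fun_prop) (by fun_prop)
    rw [mul_right_comm, Real.mul_self_sqrt (le_max_left _ _)]
    rcases le_total r ε with h | h
    · simp [max_eq_left (sub_nonpos.2 h)]
    · rw [max_eq_right (sub_nonneg.2 h)]
      nlinarith

/-- Large traces. -/
theorem lower_copies (hM : MatStmt) (hP : PullStmt) (hL : LowerStmt) (hA : HasCPAP A) {δ : ℝ}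
    (hδ : 0 < δ) :
    ∃ q : ℕ, 0 < q ∧ ∀ a : A, IsPos a → ‖a‖ ≤ 1 →
      (∃ (l : ℕ) (b : Fin l → A), ∑ i, star (a * b i) * (a * b i) = 1) → (∀ τ : TracialState A, δ ≤ (τ.toLin a).re) →
      ∃ D d : ℕ, 0 < D ∧ D ≤ 2 * d ∧ CopiesLE d 1 (q * D) a := by
  obtain ⟨q, hq⟩ := exists_nat_gt (16384 * (8 / δ))
  have h8 : 0 < 8 / δ := by positivity
  have hq0 : 0 < q := by exact_mod_cast (show (0 : ℝ) < q by linarith)
  refine ⟨q, hq0, fun a ha ha1 hful htr => ?_⟩
  obtain ⟨m, x, hx, hx'⟩ := hL A a ha ha1 hful δ hδ htr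
  set lam : ℝ := √(4 / 5) with hlam
  have hl : lam * lam = 4 / 5 := Real.mul_self_sqrt (by norm_num)
  set y : Fin m → A := fun i => a * (lam • x i) with hy
  have hy' : ∀ i, a * (lam • x i) = lam • (a * x i) := fun i => mul_smul_comm _ _ _
  have hyy : ∑ i, star (y i) * y i = (4 / 5 : ℝ) • ∑ i, star (a * x i) * (a * x i) := by
    simp only [hy, hy', star_smul, star_trivial, smul_mul_smul_comm, hl, ← Finset.smul_sum]
  have hyy' : ∑ i, y i * star (y i) = (4 / 5 : ℝ) • ∑ i, (a * x i) * star (a * x i) := by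
    simp only [hy, hy', star_smul, star_trivial, smul_mul_smul_comm, hl, ← Finset.smul_sum]
  have hone : ‖(1 : A)‖ ≤ 1 := by
    rcases subsingleton_or_nontrivial A with h | h
    · simp [Subsingleton.elim (1 : A) 0]
    · simp
  have hy1 : ‖∑ i, star (y i) * y i‖ ≤ 1 := by
    rw [hyy, norm_smul, Real.norm_of_nonneg (by norm_num)]
    linarith [norm_le_insert' (∑ i, star (a * x i) * (a * x i)) 1]
  have hy2 : ‖∑ i, y i * star (y i)‖ ≤ 8 / δ := by
    rw [hyy', norm_smul, Real.norm_of_nonneg (by norm_num)]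
    linarith
  obtain ⟨D, d, G, hD, hDd, hG⟩ := hP hM A hA m y (8 / δ) 1 q one_pos hq0 h8.le
    (by push_cast; linarith) hy1 hy2 (1 / 20) (by norm_num)
  refine ⟨D, d, hD, by simpa using hDd, ?_⟩
  have ha0 := loc_nonneg ha
  have hSa : star (CFC.sqrt a) * a * CFC.sqrt a = star a * a := by
    rw [(CFC.sqrt_nonneg a).isSelfAdjoint.star_eq, ha0.isSelfAdjoint.star_eq]
    conv_lhs => arg 1; arg 2; rw [← CFC.sqrt_mul_sqrt_self a ha0]
    rw [← mul_assoc, CFC.sqrt_mul_sqrt_self a ha0, mul_assoc, CFC.sqrt_mul_sqrt_self a ha0]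
  refine copiesLE_of_gram (colMat G y) (a' := a) (p := CFC.sqrt a)
    (fun r s => ⟨∑ i, G i r s • (lam • x i), by simp [colMat, hy, Finset.mul_sum]⟩) hSa
    fun η hη => ?_
  set T := gram (colMat G y) with hT
  have hsq : 8 * √((8 / δ) * (1 : ℕ) / q) ≤ 1 / 16 := by
    have h1 : (8 / δ) * ((1 : ℕ) : ℝ) / q ≤ (1 / 128) ^ 2 := by
      rw [Nat.cast_one, mul_one, div_le_iff₀ (by exact_mod_cast hq0)]
      linarith
    linarith [(Real.sqrt_le_sqrt h1).trans_eq (Real.sqrt_sq (by norm_num : (0 : ℝ) ≤ 1 / 128))]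
  have hnear : ‖T - 1‖ ≤ 2 / 3 := by
    have h3 : ‖(∑ i, star (y i) * y i) - 1‖ ≤ 2 / 5 := by
      rw [hyy, show (4 / 5 : ℝ) • (∑ i, star (a * x i) * (a * x i)) - 1 =
        (4 / 5 : ℝ) • ((∑ i, star (a * x i) * (a * x i)) - 1) - (1 / 5 : ℝ) • (1 : A) by module]
      refine (norm_sub_le _ _).trans ?_
      rw [norm_smul, norm_smul, Real.norm_of_nonneg (by norm_num),
        Real.norm_of_nonneg (by norm_num)]
      linarith
    calc ‖T - 1‖ = ‖pulled G y + dgHom d ((∑ i, star (y i) * y i) - 1)‖ := by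
          rw [← gram_sub, map_sub, map_one, ← dgHom_apply, ← hT]; congr 1; abel
      _ ≤ _ := (norm_add_le _ _).trans (add_le_add hG
          ((NonUnitalStarAlgHom.norm_apply_le _ _).trans h3))
      _ ≤ 2 / 3 := by linarith
  have hlow : (1 / 3 : ℝ) • (1 : CStarMatrix (Fin d) (Fin d) A) ≤ T := by
    have h1 := ((isSelfAdjoint_gram (colMat G y)).sub
      (IsSelfAdjoint.one _)).neg_algebraMap_norm_le_self
    have h2 := algebraMap_mono (CStarMatrix (Fin d) (Fin d) A) hnear
    have h4 := (neg_le_neg h2).trans h1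
    rw [Algebra.algebraMap_eq_smul_one, le_sub_iff_add_le] at h4
    refine le_trans (le_of_eq ?_) h4
    module
  rw [← dgHom_apply, map_one]
  exact exists_conj_le (u := 1) (c := 1 / 3) (by norm_num)
    (by simpa using star_mul_self_nonneg (1 : CStarMatrix (Fin d) (Fin d) A)) (by simpa using hlow) hη

/-- A nonzero element of a simple algebra is full. -/
theorem exists_full_sum [IsSimpleRing A] [Nontrivial A] {a : A} (ha : a ≠ 0) :
    ∃ (l : ℕ) (b : Fin l → A), ∑ i, star (a * b i) * (a * b i) = 1 := by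
  obtain ⟨n, x, y, hxy⟩ := loc_exists_sum ha
  set S : A := ∑ i, star (a * y i) * (a * y i) with hS
  set X : A := ∑ i, x i * star (x i) with hX
  have hS0 : 0 ≤ S := Finset.sum_nonneg fun i _ => star_mul_self_nonneg _
  set C : ℝ := ∑ i, ‖x i‖ with hC
  set M : ℝ := (n : ℝ) * C ^ 2 + 1
  have hM : 0 < M := by positivity
  have hle : (1 : A) ≤ M • S := by
    have h1 : (1 : A) = star (∑ i, x i * (a * y i)) * ∑ i, x i * (a * y i) := by
      simp [← mul_assoc, hxy]
    have hcs : ∀ z : Fin n → A, star (∑ i, z i) * ∑ i, z i ≤ (n : ℝ) • ∑ i, star (z i) * z i := by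
      intro z
      have h2 : 0 ≤ ∑ i, ∑ j, star (z i - z j) * (z i - z j) :=
        Finset.sum_nonneg fun i _ => Finset.sum_nonneg fun j _ => star_mul_self_nonneg _
      have e : ∑ i, ∑ j, star (z i - z j) * (z i - z j) =
          (2 : ℝ) • ((n : ℝ) • ∑ i, star (z i) * z i - star (∑ i, z i) * ∑ i, z i) := by
        simp only [star_sub, sub_mul, mul_sub, Finset.sum_sub_distrib, Finset.sum_const,
          Finset.card_univ, Fintype.card_fin, ← Finset.mul_sum, ← Finset.sum_mul, ← star_sum,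
          ← Finset.smul_sum]
        rw [← Nat.cast_smul_eq_nsmul ℝ]
        module
      rw [e] at h2
      have h3 := smul_nonneg (show (0 : ℝ) ≤ 1 / 2 by norm_num) h2
      rwa [smul_smul, show (1 / 2 : ℝ) * 2 = 1 by norm_num, one_smul, sub_nonneg] at h3
    rw [h1]
    refine (hcs _).trans ?_
    rw [Finset.smul_sum, hS, Finset.smul_sum]
    refine Finset.sum_le_sum fun i _ => ?_
    have h4 : star (x i) * x i ≤ algebraMap ℝ A (C ^ 2) :=
      (CStarAlgebra.star_mul_le_algebraMap_norm_sq).trans (algebraMap_mono A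
        (pow_le_pow_left₀ (norm_nonneg _)
          (Finset.single_le_sum (f := fun i => ‖x i‖) (fun i _ => norm_nonneg _)
            (Finset.mem_univ i)) 2))
    have h5 := star_left_conjugate_le_conjugate h4 (a * y i)
    rw [Algebra.algebraMap_eq_smul_one, mul_smul_comm, mul_one, smul_mul_assoc] at h5
    calc (n : ℝ) • (star (x i * (a * y i)) * (x i * (a * y i)))
        ≤ (n : ℝ) • (C ^ 2 • (star (a * y i) * (a * y i))) := by
          refine smul_le_smul_of_nonneg_left ?_ (Nat.cast_nonneg n)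
          rw [star_mul]
          simpa only [mul_assoc] using h5
      _ ≤ _ := by
          rw [smul_smul]
          exact smul_le_smul_of_nonneg_right (le_add_of_nonneg_right zero_le_one)
            (star_mul_self_nonneg _)
  have hspec : ∀ t ∈ spectrum ℝ S, M⁻¹ ≤ t := by
    refine (algebraMap_le_iff_le_spectrum (ha := hS0.isSelfAdjoint)).1 ?_
    rw [Algebra.algebraMap_eq_smul_one]
    have := smul_le_smul_of_nonneg_left hle (inv_nonneg.2 hM.le)
    rwa [smul_smul, inv_mul_cancel₀ hM.ne', one_smul] at this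
  have hc : ContinuousOn (fun t : ℝ => (√t)⁻¹) (spectrum ℝ S) :=
    Real.continuous_sqrt.continuousOn.inv₀ fun t ht =>
      (Real.sqrt_pos.2 ((inv_pos.2 hM).trans_le (hspec t ht))).ne'
  set g : A := cfc (fun t : ℝ => (√t)⁻¹) S with hg
  have hgsa : star g = g := (cfc_predicate _ S : IsSelfAdjoint _).star_eq
  refine ⟨n, fun i => y i * g, ?_⟩
  calc ∑ i, star (a * (y i * g)) * (a * (y i * g)) = g * S * g := by
        rw [hS, Finset.mul_sum, Finset.sum_mul]
        simp only [star_mul, hgsa, mul_assoc]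
    _ = 1 := by
        conv_lhs => arg 1; arg 2; rw [← cfc_id' ℝ S hS0.isSelfAdjoint]
        rw [hg, ← cfc_mul _ (fun t : ℝ => t) S hc (by fun_prop),
          ← cfc_mul _ _ S (hc.fun_mul (by fun_prop)) hc,
          ← cfc_const_one ℝ S hS0.isSelfAdjoint]
        refine cfc_congr fun t ht => ?_
        have ht0 : 0 < t := (inv_pos.2 hM).trans_le (hspec t ht)
        rw [mul_right_comm, ← mul_inv, Real.mul_self_sqrt ht0.le, inv_mul_cancel₀ ht0.ne']

/-- Lossy comparison. -/
theorem assemble : AssembleStmt := by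
  intro hM hP hUp hLo hUn A _ _ _ _ ω hω hA hτ hchar δ ε hδ hε
  obtain ⟨q, hq, hlow⟩ := lower_copies hM hP hLo hA hδ
  obtain ⟨θ, hθ, hup⟩ := upper_copies hM hP hUp hA (k := 16 * q) (by omega) hε
  refine ⟨θ, hθ, fun e a he he1 ha ha1 hte hta => ?_⟩
  obtain ⟨D₁, d₁, hD₁, hd₁, h₁⟩ := hup e he he1 hte
  obtain ⟨D₂, d₂, hD₂, hd₂, h₂⟩ := hlow a ha ha1 (exists_full_sum fun h0 => by
    obtain ⟨τ⟩ := hτ
    have := hta τ
    rw [h0, map_zero, Complex.zero_re] at this
    linarith) hta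
  have hfull : P101.Full (P101.commSet (P101.FOmega A ω)) := P101.full_commSet ⟨fun χ => by
    have := congrArg (fun f : P101.FOmega A ω →⋆ₙₐ[ℂ] ℂ => f 1) (hchar χ.toNonUnitalStarAlgHom)
    exact one_ne_zero ((map_one χ).symm.trans this)⟩
  refine hUn A ω hω (fun k hk => P101.ZS.treeStmt _ (P101.copyProp_central ω hω) hfull k hk) _ a
    (loc_isPos (cfc_nonneg fun r _ => le_max_left _ _)) ha (d₁ * d₂) (D₁ * (q * D₂))
    (Nat.mul_pos (by nlinarith) (by omega)) ?_ (h₁.trans h₂)
  have h := Nat.mul_le_mul hd₁ hd₂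
  nlinarith

end Main

end

end Vale.P095.Lossy
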