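import Vale.Agent.P095.Lossy.Pins
import Vale.Agent.P095.Lossy.Free

/-!
# Row-small families against columns, in matrices

The grid `a (s, l, i) = q^(-1/2) e_{s l} ⊗ z i` over free generators has small moments (`Free`).  In a
finite quotient of the free group which is injective on short words the traces are the same, so few
eigenvalues are large; a subspace of at least half the dimension avoids them.
-/

open scoped Kronecker Matrix.Norms.L2Operator

namespace Vale.P095.Lossy

open Free

noncomputable section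

set_option linter.unusedSectionVars false

section Compress

variable {X : Type} [Fintype X] [DecidableEq X] {N : ℕ}

theorem norm_le_one_of_gram {A B : Type} [Fintype A] [DecidableEq A] [Fintype B] [DecidableEq B]
    (V : Matrix A B ℂ) (h : V.conjTranspose * V = 1) : ‖V‖ ≤ 1 := by
  have h1 : ‖V‖ * ‖V‖ ≤ 1 := by
    rw [← Matrix.l2_opNorm_conjTranspose_mul_self, h, ← Matrix.diagonal_one,
      Matrix.l2_opNorm_diagonal]
    exact (pi_norm_le_iff_of_nonneg zero_le_one).2 fun _ => by simp
  nlinarith [norm_nonneg V]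

theorem trace_pow_eq {W : Matrix X X ℂ} (hW : W.IsHermitian) (p : ℕ) :
    (W ^ p).trace = ∑ e, (hW.eigenvalues e : ℂ) ^ p := by
  conv_lhs => rw [hW.spectral_theorem]
  rw [← map_pow, Unitary.conjStarAlgAut_apply, Matrix.trace_mul_cycle,
    Unitary.coe_star_mul_self, one_mul, Matrix.diagonal_pow, Matrix.trace_diagonal]
  rfl

/-- Few large eigenvalues leave a large subspace on which a compression is small. -/
theorem compress (W : Matrix (X × Fin N) (X × Fin N) ℂ) (hW : W.IsHermitian) (p : ℕ) (hp : 1 ≤ p)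
    (hN : 2 * N * N ≤ 4 ^ p) (β : ℝ) (hβ : 0 ≤ β)
    (htr : ‖(W ^ (2 * p)).trace‖ ≤ Fintype.card X * N * β ^ (2 * p)) :
    ∃ (d : ℕ) (V : Matrix X (Fin d) ℂ), Fintype.card X ≤ 2 * d ∧ V.conjTranspose * V = 1 ∧
      ‖(V ⊗ₖ (1 : Matrix (Fin N) (Fin N) ℂ)).conjTranspose * W *
        (V ⊗ₖ (1 : Matrix (Fin N) (Fin N) ℂ))‖ ≤ 2 * β := by
  set ev := hW.eigenvalues
  set U : Matrix (X × Fin N) (X × Fin N) ℂ := (hW.eigenvectorUnitary :) with hU
  set B : Finset (X × Fin N) := Finset.univ.filter fun e => 2 * β < |ev e| with hB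
  -- counting
  have hsum : ∑ e, ev e ^ (2 * p) ≤ Fintype.card X * N * β ^ (2 * p) := by
    refine le_trans ?_ htr
    rw [trace_pow_eq hW, show (∑ e, (ev e : ℂ) ^ (2 * p)) = ((∑ e, ev e ^ (2 * p) : ℝ) : ℂ) by
      push_cast; rfl, Complex.norm_real, Real.norm_eq_abs]
    exact le_abs_self _
  have hnn : ∀ e, 0 ≤ ev e ^ (2 * p) := fun e => (even_two_mul p).pow_nonneg _
  have hcard : 2 * (B.card * N) ≤ Fintype.card X := by
    have h1 : (B.card : ℝ) * (2 * β) ^ (2 * p) ≤ Fintype.card X * N * β ^ (2 * p) := by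
      refine le_trans ?_ hsum
      rw [← nsmul_eq_mul, ← Finset.sum_const]
      refine le_trans (Finset.sum_le_sum fun e he => ?_)
        (Finset.sum_le_univ_sum_of_nonneg hnn)
      rw [← (even_two_mul p).pow_abs (ev e)]
      exact pow_le_pow_left₀ (by linarith) (Finset.mem_filter.1 he).2.le _
    rcases hβ.eq_or_lt with h0 | hpos
    · subst h0
      have : B = ∅ := by
        refine Finset.filter_eq_empty_iff.2 fun e _ he => ?_
        rw [zero_pow (by omega), mul_zero] at hsum
        have h2 := (Finset.single_le_sum (fun e _ => hnn e) (Finset.mem_univ e)).trans hsum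
        have h3 : 0 < ev e ^ (2 * p) :=
          (even_two_mul p).pow_pos (abs_pos.1 (by linarith))
        linarith
      simp [this]
    · have h2 : (B.card : ℝ) * (4 : ℝ) ^ p ≤ Fintype.card X * N := by
        refine le_of_mul_le_mul_right ?_ (pow_pos hpos (2 * p))
        calc (B.card : ℝ) * 4 ^ p * β ^ (2 * p) = B.card * (2 * β) ^ (2 * p) := by
              rw [mul_pow, pow_mul (2 : ℝ) 2]; ring
          _ ≤ _ := h1
      have h3 : B.card * 4 ^ p ≤ Fintype.card X * N := by exact_mod_cast h2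
      rcases Nat.eq_zero_or_pos N with rfl | hN0
      · simp
      refine Nat.le_of_mul_le_mul_right ?_ hN0
      calc 2 * (B.card * N) * N = B.card * (2 * N * N) := by ring
        _ ≤ B.card * 4 ^ p := Nat.mul_le_mul_left _ hN
        _ ≤ _ := h3
  -- the subspace
  let f : B × Fin N → EuclideanSpace ℂ X := fun en =>
    WithLp.toLp 2 fun x => U (x, en.2) en.1.1
  let S : Submodule ℂ (EuclideanSpace ℂ X) := Submodule.span ℂ (Set.range f)
  let b := stdOrthonormalBasis ℂ Sᗮ
  refine ⟨Module.finrank ℂ Sᗮ, Matrix.of fun x t => ((b t : Sᗮ) : EuclideanSpace ℂ X) x, ?_, ?_, ?_⟩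
  · have h1 := S.finrank_add_finrank_orthogonal
    rw [finrank_euclideanSpace] at h1
    have h2 : Module.finrank ℂ S ≤ B.card * N := by
      refine (finrank_range_le_card f).trans ?_
      simp
    omega
  · ext s t
    have h := b.orthonormal
    rw [orthonormal_iff_ite] at h
    have h1 := h s t
    rw [Submodule.coe_inner, PiLp.inner_apply] at h1
    rw [Matrix.mul_apply, Matrix.one_apply, ← h1]
    exact Finset.sum_congr rfl fun x _ => by simp [RCLike.inner_apply, mul_comm]
  · set V : Matrix X (Fin (Module.finrank ℂ Sᗮ)) ℂ :=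
      Matrix.of fun x t => ((b t : Sᗮ) : EuclideanSpace ℂ X) x with hV
    set Vh := V ⊗ₖ (1 : Matrix (Fin N) (Fin N) ℂ) with hVh
    have hgram : V.conjTranspose * V = 1 := by
      ext s t
      have h := b.orthonormal
      rw [orthonormal_iff_ite] at h
      have h1 := h s t
      rw [Submodule.coe_inner, PiLp.inner_apply] at h1
      rw [Matrix.mul_apply, Matrix.one_apply, ← h1]
      exact Finset.sum_congr rfl fun x _ => by simp [hV, RCLike.inner_apply, mul_comm]
    have hVn : ‖Vh‖ ≤ 1 := norm_le_one_of_gram _ (by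
      rw [hVh, Matrix.conjTranspose_kronecker, ← Matrix.mul_kronecker_mul, hgram,
        Matrix.conjTranspose_one, one_mul, Matrix.one_kronecker_one])
    set lam : X × Fin N → ℂ := fun e => (ev e : ℂ)
    set lam' : X × Fin N → ℂ := fun e => if e ∈ B then 0 else lam e
    have hzero : ∀ e ∈ B, ∀ tν, (U.conjTranspose * Vh) e tν = 0 := by
      rintro e he ⟨t, ν⟩
      have hmem : f (⟨e, he⟩, ν) ∈ S := Submodule.subset_span ⟨(⟨e, he⟩, ν), rfl⟩
      have h1 : inner ℂ (f (⟨e, he⟩, ν)) ((b t : Sᗮ) : EuclideanSpace ℂ X) = 0 :=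
        Submodule.inner_right_of_mem_orthogonal hmem (b t).2
      rw [PiLp.inner_apply] at h1
      rw [Matrix.mul_apply, ← h1, Fintype.sum_prod_type]
      refine Finset.sum_congr rfl fun x _ => ?_
      rw [Finset.sum_eq_single ν (fun μ _ hμ => by simp [hVh, hμ]) (by simp)]
      simp [hVh, hV, f, RCLike.inner_apply, mul_comm]
    have hswap : Matrix.diagonal lam * (U.conjTranspose * Vh) =
        Matrix.diagonal lam' * (U.conjTranspose * Vh) := by
      ext e tν
      rw [Matrix.diagonal_mul, Matrix.diagonal_mul]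
      by_cases he : e ∈ B
      · simp [hzero e he tν]
      · simp [lam', he]
    have hspec : W = U * Matrix.diagonal lam * U.conjTranspose := hW.spectral_theorem.trans
      (Unitary.conjStarAlgAut_apply ..)
    have hUn : ‖U‖ ≤ 1 := norm_le_one_of_gram _ (Unitary.coe_star_mul_self _)
    have hd : ‖Matrix.diagonal lam'‖ ≤ 2 * β := by
      rw [Matrix.l2_opNorm_diagonal]
      refine (pi_norm_le_iff_of_nonneg (by linarith)).2 fun e => ?_
      by_cases he : e ∈ B
      · simp [lam', he, hβ]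
      · simp only [lam', if_neg he, lam, Complex.norm_real, Real.norm_eq_abs]
        simpa [hB] using he
    calc ‖Vh.conjTranspose * W * Vh‖
        = ‖Vh.conjTranspose * U * (Matrix.diagonal lam' * (U.conjTranspose * Vh))‖ := by
          rw [← hswap, hspec]; simp only [Matrix.mul_assoc]
      _ ≤ ‖Vh.conjTranspose * U‖ * (‖Matrix.diagonal lam'‖ * ‖U.conjTranspose * Vh‖) :=
          (Matrix.l2_opNorm_mul _ _).trans
            (mul_le_mul_of_nonneg_left (Matrix.l2_opNorm_mul _ _) (norm_nonneg _))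
      _ ≤ 1 * (2 * β * 1) := by
          have hVU : ‖U.conjTranspose * Vh‖ ≤ 1 := (Matrix.l2_opNorm_mul _ _).trans
            (mul_le_one₀ (by rw [Matrix.l2_opNorm_conjTranspose]; exact hUn) (norm_nonneg _) hVn)
          have hUV : ‖Vh.conjTranspose * U‖ ≤ 1 := (Matrix.l2_opNorm_mul _ _).trans
            (mul_le_one₀ (by rw [Matrix.l2_opNorm_conjTranspose]; exact hVn) (norm_nonneg _) hUn)
          gcongr
      _ = 2 * β := by ring

end Compress

section Grid

variable {N r m q k : ℕ} (z : Fin m → Matrix (Fin r) (Fin N) ℂ)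

/-- The grid `q^(-1/2) e_{s l} ⊗ z i`. -/
def grid (g : Fin q × Fin k × Fin m) : Matrix (Fin q × Fin r) (Fin k × Fin N) ℂ :=
  (((√(q : ℝ))⁻¹ : ℝ) : ℂ) • (Matrix.single g.1 g.2.1 (1 : ℂ) ⊗ₖ z g.2.2)

theorem invSqrt_mul (q : ℕ) :
    (((√(q : ℝ))⁻¹ : ℝ) : ℂ) * (((√(q : ℝ))⁻¹ : ℝ) : ℂ) = (q : ℂ)⁻¹ := by
  rw [← Complex.ofReal_mul, ← mul_inv, Real.mul_self_sqrt (Nat.cast_nonneg q)]
  push_cast; ring

theorem grid_mul (g h : Fin q × Fin k × Fin m) :
    (grid z g).conjTranspose * grid z h = (q : ℂ)⁻¹ • ((if g.1 = h.1 then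
      Matrix.single g.2.1 h.2.1 (1 : ℂ) else 0) ⊗ₖ ((z g.2.2).conjTranspose * z h.2.2)) := by
  rw [grid, grid, Matrix.conjTranspose_smul, Matrix.smul_mul, Matrix.mul_smul, smul_smul,
    Complex.star_def, Complex.conj_ofReal, invSqrt_mul, Matrix.conjTranspose_kronecker,
    ← Matrix.mul_kronecker_mul, Matrix.conjTranspose_single, star_one]
  congr 2
  by_cases hs : g.1 = h.1
  · rw [if_pos hs, hs, Matrix.single_mul_single_same, mul_one]
  · rw [if_neg hs, Matrix.single_mul_single_of_ne _ _ _ _ hs]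

theorem grid_col (hq : 0 < q) :
    ∑ g, (grid (q := q) (k := k) z g).conjTranspose * grid z g =
      (1 : Matrix (Fin k) (Fin k) ℂ) ⊗ₖ ∑ i, (z i).conjTranspose * z i := by
  simp only [grid_mul, if_true]
  ext ⟨l, μ⟩ ⟨l', ν⟩
  simp only [Matrix.sum_apply, Matrix.smul_apply, Matrix.kroneckerMap_apply, Fintype.sum_prod_type,
    Matrix.one_apply, Finset.mul_sum, smul_eq_mul]
  rw [Finset.sum_const, Finset.card_univ, Fintype.card_fin, nsmul_eq_mul]
  have hqc : (q : ℂ) ≠ 0 := by exact_mod_cast hq.ne'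
  rw [Finset.sum_eq_single l (fun t _ ht => by simp [ht]) (by simp),
    Finset.mul_sum]
  refine Finset.sum_congr rfl fun i _ => ?_
  by_cases hl : l = l' <;> simp [hl, hqc]

theorem grid_row :
    ∑ g, grid (q := q) (k := k) z g * (grid z g).conjTranspose =
      ((k : ℂ) / q) • ((1 : Matrix (Fin q) (Fin q) ℂ) ⊗ₖ ∑ i, z i * (z i).conjTranspose) := by
  ext ⟨s, μ⟩ ⟨t, ν⟩
  simp only [grid, Matrix.conjTranspose_smul, Matrix.smul_mul, Matrix.mul_smul, smul_smul,
    Complex.star_def, Complex.conj_ofReal, invSqrt_mul, Matrix.conjTranspose_kronecker,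
    ← Matrix.mul_kronecker_mul, Matrix.conjTranspose_single, star_one,
    Matrix.single_mul_single_same, mul_one]
  simp only [Matrix.sum_apply, Matrix.smul_apply, Matrix.kroneckerMap_apply, Fintype.sum_prod_type,
    Matrix.one_apply, Finset.mul_sum, smul_eq_mul]
  rw [Finset.sum_eq_single s (fun u _ hu => by simp [hu]) (by simp),
    Finset.sum_const, Finset.card_univ, Fintype.card_fin, nsmul_eq_mul, Finset.mul_sum]
  refine Finset.sum_congr rfl fun i _ => ?_
  by_cases hl : s = t <;> simp [hl]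
  ring

theorem grid_bound (c : ℝ) (hc : 0 ≤ c) (hq : 0 < q) (hck : c * k ≤ q)
    (h1 : ‖∑ i, (z i).conjTranspose * z i‖ ≤ 1) (h2 : ‖∑ i, z i * (z i).conjTranspose‖ ≤ c) :
    2 * √(‖∑ g, (grid (q := q) (k := k) z g).conjTranspose * grid z g‖ *
        ‖∑ g, grid (q := q) (k := k) z g * (grid z g).conjTranspose‖) +
      2 * ‖∑ g, grid (q := q) (k := k) z g * (grid z g).conjTranspose‖ ≤ 4 * √(c * k / q) := by
  have hS : ‖∑ g, (grid (q := q) (k := k) z g).conjTranspose * grid z g‖ ≤ 1 := by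
    rw [grid_col z hq]; exact (norm_one_kron _).trans h1
  have hC : ‖∑ g, grid (q := q) (k := k) z g * (grid z g).conjTranspose‖ ≤ c * k / q := by
    rw [grid_row, norm_smul, norm_div, Complex.norm_natCast, Complex.norm_natCast]
    calc (k : ℝ) / q * _ ≤ k / q * c :=
          mul_le_mul_of_nonneg_left ((norm_one_kron _).trans h2) (by positivity)
      _ = _ := by ring
  set e := c * k / q
  have he0 : 0 ≤ e := by positivity
  have he1 : e ≤ 1 := (div_le_one (by exact_mod_cast hq)).2 hck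
  have h3 : e ≤ √e := Real.le_sqrt_of_sq_le (by nlinarith)
  have h4 : √(‖∑ g, (grid (q := q) (k := k) z g).conjTranspose * grid z g‖ *
      ‖∑ g, grid (q := q) (k := k) z g * (grid z g).conjTranspose‖) ≤ √e :=
    Real.sqrt_le_sqrt ((mul_le_mul hS hC (norm_nonneg _) zero_le_one).trans_eq (one_mul e))
  linarith

variable {Q : Type} [Fintype Q] [DecidableEq Q]
  (π : FreeGroup (Fin q × Fin k × Fin m) →* Equiv.Perm Q)

/-- The permutations of the grid as one matrix. -/
def hmat (i : Fin m) : Matrix (Q × Fin q) (Q × Fin k) ℂ :=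
  Matrix.of fun xs yl => permHom (π (FreeGroup.of (xs.2, yl.2, i))) xs.1 yl.1

theorem norm_hmat (i : Fin m) : ‖hmat π i‖ ≤ k * √(q : ℝ) := by
  let T : Fin k → Matrix (Q × Fin q) (Q × Fin k) ℂ := fun l =>
    Matrix.of fun xs yl => if yl.2 = l then hmat π i xs yl else 0
  have hsum : hmat π i = ∑ l, T l := by
    ext xs yl
    simp [T, Matrix.sum_apply]
  have hT : ∀ l, ‖T l‖ ≤ √(q : ℝ) := fun l => by
    refine Real.le_sqrt_of_sq_le ?_
    have hg : (T l).conjTranspose * T l =
        Matrix.diagonal fun yl : Q × Fin k => if yl.2 = l then (q : ℂ) else 0 := by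
      ext ⟨y, a⟩ ⟨y', a'⟩
      rw [Matrix.mul_apply, Fintype.sum_prod_type]
      by_cases ha : a = l <;> by_cases ha' : a' = l
      · subst ha; subst ha'
        simp only [T, hmat, Matrix.conjTranspose_apply, Matrix.of_apply, if_true, permHom_apply]
        rw [Finset.sum_comm]
        rcases eq_or_ne y y' with rfl | hy
        · simp
        · simp [hy, eq_comm]
      all_goals simp [T, ha, ha', Matrix.diagonal_apply]
      all_goals intro _ h'
      all_goals exact absurd h'.symm ha'
    rw [sq, ← Matrix.l2_opNorm_conjTranspose_mul_self, hg, Matrix.l2_opNorm_diagonal]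
    refine (pi_norm_le_iff_of_nonneg (Nat.cast_nonneg q)).2 fun yl => ?_
    split_ifs <;> simp
  rw [hsum]
  exact (norm_sum_le _ _).trans ((Finset.sum_le_sum fun l _ => hT l).trans (by simp))

/-- The coefficient of `(z i)ᴴ z j`. -/
def kmat (i j : Fin m) : Matrix (Q × Fin k) (Q × Fin k) ℂ :=
  (q : ℂ)⁻¹ • ((hmat π i).conjTranspose * hmat π j) - if i = j then 1 else 0

theorem hermitian_wel : (Phi π (Wel (grid (q := q) (k := k) z))).IsHermitian := by
  rw [Matrix.IsHermitian, Phi_wel, Matrix.conjTranspose_sum]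
  simp only [Matrix.conjTranspose_sum, Matrix.conjTranspose_kronecker, permHom_star]
  rw [Finset.sum_comm]
  refine Finset.sum_congr rfl fun g _ => Finset.sum_congr rfl fun h _ => ?_
  by_cases hgh : g = h
  · simp [hgh]
  · simp [hgh, Ne.symm hgh, Matrix.conjTranspose_mul, ← map_inv]

theorem sum_kmat (hq : 0 < q) :
    ∑ i, ∑ j, kmat π i j ⊗ₖ ((z i).conjTranspose * z j) =
      (Phi π (Wel (grid z))).submatrix (Equiv.prodAssoc Q (Fin k) (Fin N))
        (Equiv.prodAssoc Q (Fin k) (Fin N)) := by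
  ext ⟨⟨x, l⟩, μ⟩ ⟨⟨y, l'⟩, ν⟩
  set w : Fin m → Fin m → ℂ := fun i j => ((z i).conjTranspose * z j) μ ν with hw
  have hA : ∀ g h : Fin q × Fin k × Fin m, ((grid z g).conjTranspose * grid z h) (l, μ) (l', ν) =
      if g.1 = h.1 ∧ g.2.1 = l ∧ h.2.1 = l' then (q : ℂ)⁻¹ * w g.2.2 h.2.2 else 0 := fun g h => by
    rw [grid_mul, Matrix.smul_apply, Matrix.kroneckerMap_apply, smul_eq_mul]
    by_cases hs : g.1 = h.1
    · simp [hs, Matrix.single_apply, hw]
    · simp [hs]
  have hK : ∀ i j, kmat π i j (x, l) (y, l') =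
      (q : ℂ)⁻¹ * (∑ s, permHom (π ((FreeGroup.of (s, l, i))⁻¹ * FreeGroup.of (s, l', j))) x y) -
        if i = j ∧ x = y ∧ l = l' then 1 else 0 := fun i j => by
    rw [kmat, Matrix.sub_apply, Matrix.smul_apply, Matrix.mul_apply, smul_eq_mul,
      Fintype.sum_prod_type, Finset.sum_comm]
    congr 1
    · congr 1
      refine Finset.sum_congr rfl fun s _ => ?_
      rw [map_mul, map_inv, map_mul, ← permHom_star, Matrix.mul_apply]
      exact Finset.sum_congr rfl fun u _ => rfl
    · by_cases hij : i = j <;> simp [hij, Matrix.one_apply, Prod.ext_iff]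
  have hoff : ∀ g h : Fin q × Fin k × Fin m,
      (permHom (π ((FreeGroup.of g)⁻¹ * FreeGroup.of h)) x y) *
        (if g = h then (0 : Matrix (Fin k × Fin N) (Fin k × Fin N) ℂ) else
          (grid z g).conjTranspose * grid z h) (l, μ) (l', ν) =
      permHom (π ((FreeGroup.of g)⁻¹ * FreeGroup.of h)) x y *
          ((grid z g).conjTranspose * grid z h) (l, μ) (l', ν) -
        if g = h then (if x = y then ((grid z g).conjTranspose * grid z g) (l, μ) (l', ν) else 0)
        else 0 := fun g h => by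
    by_cases hgh : g = h
    · subst hgh
      rw [if_pos rfl, if_pos rfl, inv_mul_cancel, map_one, map_one, Matrix.one_apply]
      by_cases hxy : x = y <;> simp [hxy]
    · simp [hgh]
  simp only [Matrix.submatrix_apply, Equiv.prodAssoc_apply, Phi_wel, Matrix.sum_apply,
    Matrix.kroneckerMap_apply, hoff, Finset.sum_sub_distrib, Finset.sum_ite_eq, Finset.mem_univ,
    if_true, hK, sub_mul, hA]
  congr 1
  · simp only [Fintype.sum_prod_type]
    simp only [mul_ite, mul_zero, ite_and, Finset.sum_ite_eq', Finset.sum_ite_irrel,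
      Finset.sum_const_zero, Finset.sum_ite_eq, Finset.mem_univ, if_true, Finset.mul_sum,
      Finset.sum_mul]
    rw [Finset.sum_comm (γ := Fin q)]
    refine Finset.sum_congr rfl fun i _ => ?_
    rw [Finset.sum_comm]
    exact Finset.sum_congr rfl fun j _ => Finset.sum_congr rfl fun s _ => by simp only [hw]; ring
  · have hqc : (q : ℂ) ≠ 0 := by exact_mod_cast hq.ne'
    by_cases hxy : x = y
    · by_cases hll : l = l'
      · subst hll
        simp [hxy, Fintype.sum_prod_type, hw, Finset.sum_ite_irrel]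
        rw [← Finset.mul_sum, mul_inv_cancel_left₀ hqc]
      · simp [hxy, hll, ite_and, hw]
        exact (Finset.sum_eq_zero fun (g : Fin q × Fin k × Fin m) _ => by
          by_cases hg : g.2.1 = l <;> simp [hg, hll]).symm
    · simp [hxy]

end Grid

/-- The action on the permutations of the ball. -/
def piHom (Γ : Type) [Fintype Γ] [DecidableEq Γ] (M : ℕ) :
    FreeGroup Γ →* Equiv.Perm (Equiv.Perm (Ball Γ M)) :=
  (MulAction.toPermHom (Equiv.Perm (Ball Γ M)) (Equiv.Perm (Ball Γ M))).comp (sigma M)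

theorem trace_bound {Γ n n' : Type} [Fintype Γ] [DecidableEq Γ] [Fintype n] [DecidableEq n]
    [Fintype n'] [DecidableEq n'] (a : Γ → Matrix n' n ℂ) (p : ℕ) (β : ℝ)
    (hβ : 2 * √(‖∑ g, (a g).conjTranspose * a g‖ * ‖∑ g, a g * (a g).conjTranspose‖) +
      2 * ‖∑ g, a g * (a g).conjTranspose‖ ≤ β) :
    ‖(Phi (piHom Γ (4 * p)) (Wel a) ^ (2 * p)).trace‖ ≤
      Fintype.card (Equiv.Perm (Ball Γ (4 * p))) * Fintype.card n * β ^ (2 * p) := by
  rw [← map_pow, Matrix.trace]
  simp only [Matrix.diag_apply, Fintype.sum_prod_type]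
  have hd : ∀ (y : Equiv.Perm (Ball Γ (4 * p))) (α : n),
      Phi (piHom Γ (4 * p)) (Wel a ^ (2 * p)) (y, α) (y, α) = (Wel a ^ (2 * p)).coeff 1 α α := by
    intro y α
    rw [Phi_apply, Finset.sum_eq_single 1]
    · simp
    · intro w hw hw1
      refine if_neg fun e => hw1 ?_
      have e1 : sigma (4 * p) w = 1 := mul_eq_right.1 e
      have hw' : FreeGroup.norm w ≤ 4 * p := by
        have := short_pow a (2 * p) w hw; omega
      have e2 := sigma_base (4 * p) w hw'
      rw [e1] at e2
      exact (congrArg Subtype.val e2).symm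
    · intro h
      simp [Finsupp.notMem_support_iff.1 h]
  refine (norm_sum_le _ _).trans ?_
  refine (Finset.sum_le_sum fun y _ => (norm_sum_le _ _).trans
    (Finset.sum_le_sum fun α _ => ?_)).trans (le_of_eq (by
      simp [mul_assoc] :
        ∑ _y : Equiv.Perm (Ball Γ (4 * p)), ∑ _α : n, β ^ (2 * p) = _))
  rw [hd]
  exact (moment_le a _ α).trans (pow_le_pow_left₀ (by positivity) hβ _)

/-- `MatStmt` from an action with small moments. -/
theorem mat_core {N r m q k : ℕ} (z : Fin m → Matrix (Fin r) (Fin N) ℂ) (Q : Type) [Fintype Q]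
    [DecidableEq Q] [Nonempty Q] (π : FreeGroup (Fin q × Fin k × Fin m) →* Equiv.Perm Q)
    (hq : 0 < q) (p : ℕ) (hp : 1 ≤ p) (hp4 : 2 * N * N ≤ 4 ^ p) (β : ℝ) (hβ : 0 ≤ β)
    (htr0 : ‖(Phi π (Wel (grid (q := q) (k := k) z)) ^ (2 * p)).trace‖ ≤
      Fintype.card Q * Fintype.card (Fin k × Fin N) * β ^ (2 * p)) :
    ∃ (D d : ℕ) (G : Fin m → Matrix (Fin (q * D)) (Fin d) ℂ), 0 < D ∧ k * D ≤ 2 * d ∧
      (∀ i, ‖G i‖ ≤ k) ∧
      ‖∑ i, ∑ j, gramDefect G i j ⊗ₖ ((z i).conjTranspose * z j)‖ ≤ 2 * β := by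
  have hW0 := hermitian_wel z π
  set Z := Phi π (Wel (grid (q := q) (k := k) z)) with hZ
  set as := Equiv.prodAssoc Q (Fin k) (Fin N)
  have hWh : (Z.submatrix as as).IsHermitian := hW0.submatrix as
  have hpow : ∀ j : ℕ, (Z.submatrix as as) ^ j = (Z ^ j).submatrix as as := by
    intro j
    induction j with
    | zero => simp
    | succ j ih => rw [pow_succ, pow_succ, ih, Matrix.submatrix_mul_equiv]
  have htr : ‖((Z.submatrix as as) ^ (2 * p)).trace‖ ≤
      Fintype.card (Q × Fin k) * N * β ^ (2 * p) := by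
    rw [hpow, show ((Z ^ (2 * p)).submatrix as as).trace = (Z ^ (2 * p)).trace from
      Equiv.sum_comp as fun e => (Z ^ (2 * p)) e e]
    refine htr0.trans (le_of_eq ?_)
    simp only [Fintype.card_prod, Fintype.card_fin]
    push_cast
    ring
  obtain ⟨d, V, hd, hV, hnorm⟩ := compress (Z.submatrix as as) hWh p hp hp4 β hβ htr
  have e : Q × Fin q ≃ Fin (q * Fintype.card Q) :=
    Fintype.equivFinOfCardEq (by rw [Fintype.card_prod, Fintype.card_fin, mul_comm])
  let G : Fin m → Matrix (Fin (q * Fintype.card Q)) (Fin d) ℂ := fun i =>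
    ((((√(q : ℝ))⁻¹ : ℝ) : ℂ) • (hmat π i * V)).submatrix e.symm id
  refine ⟨Fintype.card Q, d, G, Fintype.card_pos, ?_, ?_, ?_⟩
  · simpa [mul_comm] using hd
  · intro i
    have hV1 := norm_le_one_of_gram V hV
    have hsub : ‖G i‖ = ‖(((√(q : ℝ))⁻¹ : ℝ) : ℂ) • (hmat π i * V)‖ := by
      have hGG : (G i).conjTranspose * G i =
          ((((√(q : ℝ))⁻¹ : ℝ) : ℂ) • (hmat π i * V)).conjTranspose *
            ((((√(q : ℝ))⁻¹ : ℝ) : ℂ) • (hmat π i * V)) := by
        rw [Matrix.conjTranspose_submatrix, Matrix.submatrix_mul_equiv, Matrix.submatrix_id_id]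
      refine (mul_self_inj_of_nonneg (norm_nonneg _) (norm_nonneg _)).1 ?_
      rw [← Matrix.l2_opNorm_conjTranspose_mul_self, ← Matrix.l2_opNorm_conjTranspose_mul_self, hGG]
    rw [hsub, norm_smul, Complex.norm_real, Real.norm_of_nonneg (by positivity)]
    calc (√(q : ℝ))⁻¹ * ‖hmat π i * V‖ ≤ (√(q : ℝ))⁻¹ * (k * √(q : ℝ) * 1) := by
          gcongr
          exact (Matrix.l2_opNorm_mul _ _).trans
            (mul_le_mul (norm_hmat π i) hV1 (norm_nonneg _) (by positivity))
      _ = k := by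
          have : √(q : ℝ) ≠ 0 := (Real.sqrt_pos.2 (by exact_mod_cast hq)).ne'
          field_simp
  · have hgd : ∀ i j, gramDefect G i j = V.conjTranspose * kmat π i j * V := fun i j => by
      rw [gramDefect, kmat, Matrix.mul_sub, Matrix.sub_mul]
      congr 1
      · rw [Matrix.conjTranspose_submatrix, Matrix.submatrix_mul_equiv, Matrix.submatrix_id_id,
          Matrix.conjTranspose_smul, Matrix.smul_mul, Matrix.mul_smul, smul_smul, Complex.star_def,
          Complex.conj_ofReal, invSqrt_mul, Matrix.conjTranspose_mul, Matrix.mul_smul,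
          Matrix.smul_mul]
        simp only [Matrix.mul_assoc]
      · by_cases hij : i = j <;> simp [hij, hV]
    have hsum : ∑ i, ∑ j, gramDefect G i j ⊗ₖ ((z i).conjTranspose * z j) =
        (V ⊗ₖ (1 : Matrix (Fin N) (Fin N) ℂ)).conjTranspose * Z.submatrix as as *
          (V ⊗ₖ (1 : Matrix (Fin N) (Fin N) ℂ)) := by
      rw [← sum_kmat z π hq]
      simp only [hgd, Matrix.mul_sum, Matrix.sum_mul,
        Matrix.conjTranspose_kronecker, ← Matrix.mul_kronecker_mul, Matrix.conjTranspose_one,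
        Matrix.one_mul, Matrix.mul_one]
    rw [hsum]
    exact hnorm

/-- `MatStmt`. -/
theorem mat : MatStmt := by
  intro N r m z c k q hk hq hc hck h1 h2
  obtain ⟨D, d, G, hD, hd, hG, hn⟩ := mat_core z
    (Equiv.Perm (Ball (Fin q × Fin k × Fin m) (4 * (2 * N * N + 1)))) (piHom _ _) hq
    (2 * N * N + 1) (by omega)
    (by have := Nat.lt_pow_self (n := 2 * N * N + 1) (by norm_num : 1 < 4); omega)
    (4 * √(c * k / q)) (by positivity)
    (trace_bound _ _ _ (grid_bound z c hc hq hck h1 h2))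
  exact ⟨D, d, G, hD, hd, hG, hn.trans (le_of_eq (by ring))⟩

end

end Vale.P095.Lossy
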