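import Vale.Agent.P095.Lossy.Pins

/-!
# P095: Cuntz–Pedersen decompositions from tracial states

`CP u v` says that `u` is approximately `∑ x⋆x` with `∑ xx⋆` below `v`.  It is transitive and
additive.  If all tracial states satisfy `τ u ≤ τ v`, Hahn–Banach gives `u + Y ≲ v + Y`, and
iterating and dividing gives `u ≲ v`.
-/

namespace Vale.P095.Lossy

open Vale.P095.SI Vale.P095.Tracial

noncomputable section

attribute [local instance] CStarAlgebra.spectralOrder CStarAlgebra.spectralOrderedRing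

namespace Pedersen

variable {A : Type*} [CStarAlgebra A]

/-- `u` is approximately a sum `∑ x⋆x` with `∑ xx⋆` almost below `v`. -/
def CP (u v : A) : Prop :=
  ∀ η : ℝ, 0 < η → ∃ (m : ℕ) (x : Fin m → A),
    ‖(∑ i, star (x i) * x i) - u‖ ≤ η ∧ ∑ i, x i * star (x i) ≤ v + η • (1 : A)

theorem smul_one_mono {r s : ℝ} (h : r ≤ s) : r • (1 : A) ≤ s • (1 : A) := by
  rw [← Algebra.algebraMap_eq_smul_one, ← Algebra.algebraMap_eq_smul_one]
  exact algebraMap_mono A h

theorem le_add_of_norm_sub_le {a b : A} (ha : IsSelfAdjoint a) (hb : IsSelfAdjoint b) {η : ℝ}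
    (h : ‖a - b‖ ≤ η) : b ≤ a + η • (1 : A) := by
  have h1 : -(a - b) ≤ algebraMap ℝ A ‖-(a - b)‖ := (ha.sub hb).neg.le_algebraMap_norm_self
  rw [norm_neg, neg_sub] at h1
  have h2 := h1.trans (algebraMap_mono A h)
  rw [Algebra.algebraMap_eq_smul_one, sub_le_iff_le_add, add_comm] at h2
  exact h2

theorem isSelfAdjoint_gram {ι : Type*} [Fintype ι] (x : ι → A) :
    IsSelfAdjoint (∑ i, star (x i) * x i) :=
  IsSelfAdjoint.of_nonneg (Finset.sum_nonneg fun i _ => star_mul_self_nonneg (x i))

theorem cp_intro {u v : A} {η : ℝ} {ι : Type*} [Fintype ι] (x : ι → A)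
    (h1 : ‖(∑ i, star (x i) * x i) - u‖ ≤ η) (h2 : ∑ i, x i * star (x i) ≤ v + η • (1 : A)) :
    ∃ (m : ℕ) (x : Fin m → A),
      ‖(∑ i, star (x i) * x i) - u‖ ≤ η ∧ ∑ i, x i * star (x i) ≤ v + η • (1 : A) := by
  refine ⟨Fintype.card ι, x ∘ (Fintype.equivFin ι).symm, ?_, ?_⟩
  · simp only [Function.comp_apply]
    rw [(Fintype.equivFin ι).symm.sum_comp (fun i => star (x i) * x i)]
    exact h1
  · simp only [Function.comp_apply]
    rw [(Fintype.equivFin ι).symm.sum_comp (fun i => x i * star (x i))]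
    exact h2

/-- A family with `∑ xx⋆ ≤ ∑ y⋆y` is approximately moved below the `y`. -/
theorem transfer {ι κ : Type*} [Fintype ι] [Fintype κ] (x : ι → A) (y : κ → A)
    (h : ∑ i, x i * star (x i) ≤ ∑ j, star (y j) * y j) (ε : ℝ) (hε : 0 < ε) :
    ∃ w : ι → A,
      ‖(∑ q : κ × ι, star (y q.1 * w q.2) * (y q.1 * w q.2)) - ∑ i, star (x i) * x i‖ ≤ ε ∧
      ∑ q : κ × ι, (y q.1 * w q.2) * star (y q.1 * w q.2) ≤ ∑ j, y j * star (y j) := by
  classical
  set T := ∑ j, star (y j) * y j with hT
  have hTn : 0 ≤ T := Finset.sum_nonneg fun j _ => star_mul_self_nonneg (y j)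
  have hTs : IsSelfAdjoint T := IsSelfAdjoint.of_nonneg hTn
  set θ : ℝ := ε / (Fintype.card ι + 1) with hθdef
  have hθ : 0 < θ := by positivity
  have hd : ∀ r : ℝ, 0 < max r 0 + θ := fun r => add_pos_of_nonneg_of_pos (le_max_right r 0) hθ
  let cf : ℝ → ℝ := fun r => (√(max r 0 + θ))⁻¹
  let hf : ℝ → ℝ := fun r => √θ * (√(max r 0 + θ))⁻¹
  have hcf : Continuous cf := by
    refine Continuous.inv₀ (by fun_prop) fun r => ?_
    exact (Real.sqrt_pos.2 (hd r)).ne'
  have hhf : Continuous hf := by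
    show Continuous fun r => √θ * cf r
    fun_prop
  set c := cfc cf T with hc
  set g := cfc hf T with hg
  have hcs : star c = c := (cfc_predicate cf T).star_eq
  have hgs : star g = g := (cfc_predicate hf T).star_eq
  have hspec : ∀ r ∈ spectrum ℝ T, 0 ≤ r := fun r hr => spectrum_nonneg_of_nonneg hTn hr
  have hcTc : c * T * c = cfc (fun r => cf r * r * cf r) T := by
    rw [cfc_mul (fun r => cf r * r) cf T (hcf.mul continuous_id).continuousOn hcf.continuousOn,
      cfc_mul cf (fun r => r) T hcf.continuousOn continuousOn_id, cfc_id' ℝ T hTs]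
  have hle1 : c * T * c ≤ 1 := by
    rw [hcTc]
    refine cfc_le_one _ _ fun r hr => ?_
    have h0 := hspec r hr
    show (√(max r 0 + θ))⁻¹ * r * (√(max r 0 + θ))⁻¹ ≤ 1
    rw [mul_right_comm, ← mul_inv, Real.mul_self_sqrt (hd r).le, max_eq_left h0,
      inv_mul_le_one₀ (by linarith)]
    linarith
  have hcompl : 1 - c * T * c = star g * g := by
    rw [hgs, hcTc, hg, ← cfc_mul hf hf T hhf.continuousOn hhf.continuousOn, ← cfc_const_one ℝ T hTs,
      ← cfc_sub (fun _ => (1 : ℝ)) (fun r => cf r * r * cf r) T continuousOn_const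
        ((hcf.mul continuous_id).mul hcf).continuousOn]
    refine cfc_congr fun r hr => ?_
    have h0 := hspec r hr
    have hpos : 0 < r + θ := by linarith
    show 1 - (√(max r 0 + θ))⁻¹ * r * (√(max r 0 + θ))⁻¹ =
      √θ * (√(max r 0 + θ))⁻¹ * (√θ * (√(max r 0 + θ))⁻¹)
    rw [max_eq_left h0]
    have e1 := Real.mul_self_sqrt hθ.le
    have e2 := Real.mul_self_sqrt hpos.le
    have : (√(r + θ))⁻¹ * (√(r + θ))⁻¹ = (r + θ)⁻¹ := by rw [← mul_inv, e2]
    linear_combination (-(r + (√θ * √θ))) * this + (-(r + θ)⁻¹) * e1 +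
      (-1 : ℝ) * mul_inv_cancel₀ hpos.ne'
  have hgTg : ‖g * T * g‖ ≤ θ := by
    rw [hg, show cfc hf T * T * cfc hf T = cfc (fun r => hf r * r * hf r) T by
      rw [cfc_mul (fun r => hf r * r) hf T (hhf.mul continuous_id).continuousOn hhf.continuousOn,
        cfc_mul hf (fun r => r) T hhf.continuousOn continuousOn_id, cfc_id' ℝ T hTs]]
    refine norm_cfc_le hθ.le fun r hr => ?_
    have h0 := hspec r hr
    have hpos : 0 < r + θ := by linarith
    show ‖√θ * (√(max r 0 + θ))⁻¹ * r * (√θ * (√(max r 0 + θ))⁻¹)‖ ≤ θ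
    rw [max_eq_left h0, Real.norm_eq_abs, abs_of_nonneg (by positivity),
      show √θ * (√(r + θ))⁻¹ * r * (√θ * (√(r + θ))⁻¹) =
        (√θ * √θ) * (r * (√(r + θ) * √(r + θ))⁻¹) by rw [mul_inv]; ring,
      Real.mul_self_sqrt hθ.le, Real.mul_self_sqrt hpos.le]
    exact mul_le_of_le_one_right hθ.le (by rw [← div_eq_mul_inv, div_le_one hpos]; linarith)
  refine ⟨fun i => c * x i, ?_, ?_⟩
  · have e : ∑ i, star (x i) * x i -
        ∑ q : κ × ι, star (y q.1 * (c * x q.2)) * (y q.1 * (c * x q.2)) =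
        ∑ i, star (g * x i) * (g * x i) := by
      rw [Fintype.sum_prod_type_right, ← Finset.sum_sub_distrib]
      refine Finset.sum_congr rfl fun i _ => ?_
      have e1 : ∑ j, star (y j * (c * x i)) * (y j * (c * x i)) =
          star (x i) * (c * T * c) * x i := by
        simp only [hT, Finset.mul_sum, Finset.sum_mul, star_mul, hcs, mul_assoc]
      rw [e1, show star (g * x i) * (g * x i) = star (x i) * (star g * g) * x i by
        simp only [star_mul, mul_assoc], ← hcompl]
      noncomm_ring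
    rw [norm_sub_rev, e]
    calc ‖∑ i, star (g * x i) * (g * x i)‖ ≤ ∑ _i : ι, θ := by
          refine (norm_sum_le _ _).trans (Finset.sum_le_sum fun i _ => ?_)
          rw [CStarRing.norm_star_mul_self, ← CStarRing.norm_self_mul_star, star_mul, hgs,
            ← mul_assoc, mul_assoc g]
          have hxi : x i * star (x i) ≤ T :=
            (Finset.single_le_sum (fun j _ => mul_star_self_nonneg (x j))
              (Finset.mem_univ i)).trans h
          refine (CStarAlgebra.norm_le_norm_of_nonneg_of_le ?_ ?_).trans hgTg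
          · simpa [hgs] using star_left_conjugate_nonneg (mul_star_self_nonneg (x i)) g
          · simpa [hgs] using star_left_conjugate_le_conjugate hxi g
      _ = Fintype.card ι * θ := by simp
      _ ≤ ε := by
          rw [hθdef, ← mul_div_assoc, div_le_iff₀ (by positivity)]
          nlinarith
  · rw [Fintype.sum_prod_type]
    refine Finset.sum_le_sum fun j _ => ?_
    have e1 : ∑ i, y j * (c * x i) * star (y j * (c * x i)) =
        y j * (c * (∑ i, x i * star (x i)) * c) * star (y j) := by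
      simp only [Finset.mul_sum, Finset.sum_mul, star_mul, hcs, mul_assoc]
    have h1 : c * (∑ i, x i * star (x i)) * c ≤ 1 := by
      refine le_trans ?_ hle1
      simpa [hcs] using star_left_conjugate_le_conjugate h c
    rw [e1]
    simpa using star_right_conjugate_le_conjugate h1 (y j)

theorem CP.of_le {u v : A} (hu : 0 ≤ u) (huv : u ≤ v) : CP u v := by
  intro η hη
  obtain ⟨s, hs⟩ : ∃ s : A, IsSelfAdjoint s ∧ s * s = u :=
    ⟨CFC.sqrt u, IsSelfAdjoint.of_nonneg (CFC.sqrt_nonneg u), CFC.sqrt_mul_sqrt_self u hu⟩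
  refine cp_intro (fun _ : Unit => s) ?_ ?_
  · simp [hs.1.star_eq, hs.2, hη.le]
  · simp only [Finset.univ_unique, Finset.sum_singleton, hs.1.star_eq, hs.2]
    exact huv.trans (le_add_of_nonneg_right (smul_nonneg hη.le zero_le_one))

theorem CP.add {u v u' v' : A} (h : CP u v) (h' : CP u' v') : CP (u + u') (v + v') := by
  intro η hη
  obtain ⟨m, x, hx1, hx2⟩ := h (η / 2) (by positivity)
  obtain ⟨n, y, hy1, hy2⟩ := h' (η / 2) (by positivity)
  refine cp_intro (Sum.elim x y) ?_ ?_
  · rw [Fintype.sum_sum_type]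
    simp only [Sum.elim_inl, Sum.elim_inr]
    calc _ = ‖((∑ i, star (x i) * x i) - u) + ((∑ i, star (y i) * y i) - u')‖ := by
          congr 1; abel
      _ ≤ η / 2 + η / 2 := (norm_add_le _ _).trans (add_le_add hx1 hy1)
      _ = η := by ring
  · rw [Fintype.sum_sum_type]
    simp only [Sum.elim_inl, Sum.elim_inr]
    refine (add_le_add hx2 hy2).trans (le_of_eq ?_)
    module

theorem CP.trans {u v w : A} (hv : 0 ≤ v) (h : CP u v) (h' : CP v w) : CP u w := by
  intro η hη
  obtain ⟨m, x, hx1, hx2⟩ := h (η / 4) (by positivity)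
  obtain ⟨n, y, hy1, hy2⟩ := h' (η / 4) (by positivity)
  obtain ⟨s0, hs0, es⟩ : ∃ s0 : A, star s0 = s0 ∧ s0 * s0 = (η / 2) • (1 : A) :=
    ⟨√(η / 2) • (1 : A), by simp,
      by rw [smul_mul_assoc, one_mul, smul_smul, Real.mul_self_sqrt (by positivity)]⟩
  let y' : Option (Fin n) → A := fun o => o.elim s0 y
  have hT : ∑ i, x i * star (x i) ≤ ∑ o, star (y' o) * y' o := by
    have e : ∑ o, star (y' o) * y' o = (η / 2) • (1 : A) + ∑ i, star (y i) * y i := by
      rw [Fintype.sum_option]
      simp [y', es, hs0]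
    rw [e]
    calc _ ≤ v + (η / 4) • (1 : A) := hx2
      _ ≤ ((∑ i, star (y i) * y i) + (η / 4) • (1 : A)) + (η / 4) • (1 : A) := by
          gcongr
          exact le_add_of_norm_sub_le (isSelfAdjoint_gram y) (IsSelfAdjoint.of_nonneg hv) hy1
      _ = _ := by module
  obtain ⟨z, hz1, hz2⟩ := transfer x y' hT (η / 4) (by positivity)
  refine cp_intro (fun q : Option (Fin n) × Fin m => y' q.1 * z q.2) ?_ ?_
  · calc _ ≤ η / 4 + η / 4 := (norm_sub_le_norm_sub_add_norm_sub _ _ _).trans (add_le_add hz1 hx1)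
      _ ≤ η := by linarith
  · refine hz2.trans ?_
    have e : ∑ o, y' o * star (y' o) = (η / 2) • (1 : A) + ∑ i, y i * star (y i) := by
      rw [Fintype.sum_option]
      simp [y', es, hs0]
    rw [e]
    calc _ ≤ (η / 2) • (1 : A) + (w + (η / 4) • (1 : A)) := by gcongr
      _ = w + (η * (3 / 4)) • (1 : A) := by module
      _ ≤ _ := by gcongr; linarith

theorem CP.swap {ι : Type*} [Fintype ι] (y : ι → A) :
    CP (∑ i, y i * star (y i)) (∑ i, star (y i) * y i) := fun η hη =>
  cp_intro (fun i => star (y i)) (by simp [hη.le]) (by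
    simp only [star_star]
    exact le_add_of_nonneg_right (smul_nonneg hη.le zero_le_one))

theorem CP.smul {u v : A} (h : CP u v) {r : ℝ} (hr : 0 < r) : CP (r • u) (r • v) := by
  intro η hη
  obtain ⟨m, x, hx1, hx2⟩ := h (η / r) (by positivity)
  have hsq : √r * √r = r := Real.mul_self_sqrt hr.le
  refine cp_intro (fun i => √r • x i) ?_ ?_
  · simp only [star_smul, star_trivial, smul_mul_smul_comm, hsq, ← Finset.smul_sum, ← smul_sub,
      norm_smul, Real.norm_eq_abs, abs_of_pos hr]
    rw [mul_comm, ← le_div_iff₀ hr]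
    exact hx1
  · simp only [star_smul, star_trivial, smul_mul_smul_comm, hsq, ← Finset.smul_sum]
    refine (smul_le_smul_of_nonneg_left hx2 hr.le).trans (le_of_eq ?_)
    rw [smul_add, smul_smul, mul_div_cancel₀ η hr.ne']

/-! ### Hahn–Banach -/

/-- Positive elements plus sums of self-commutators. -/
def cone : Set A :=
  {k | ∃ (p : A) (m : ℕ) (y : Fin m → A),
    0 ≤ p ∧ k = p + ∑ i, (star (y i) * y i - y i * star (y i))}

theorem cone_zero : (0 : A) ∈ cone := ⟨0, 0, ![], le_rfl, by simp⟩

theorem cone_smul {k : A} (hk : k ∈ cone) {r : ℝ} (hr : 0 ≤ r) : r • k ∈ cone := by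
  obtain ⟨p, m, y, hp, rfl⟩ := hk
  refine ⟨r • p, m, fun i => √r • y i, smul_nonneg hr hp, ?_⟩
  simp only [star_smul, star_trivial, smul_mul_smul_comm, Real.mul_self_sqrt hr, ← smul_sub,
    ← Finset.smul_sum, smul_add]

theorem cone_add {k k' : A} (hk : k ∈ cone) (hk' : k' ∈ cone) : k + k' ∈ cone := by
  obtain ⟨p, m, y, hp, rfl⟩ := hk
  obtain ⟨p', m', y', hp', rfl⟩ := hk'
  refine ⟨p + p', m + m', Fin.append y y', add_nonneg hp hp', ?_⟩
  simp only [Fin.sum_univ_add, Fin.append_left, Fin.append_right]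
  abel

/-- Inequality of all tracial states puts the difference in the closure of the cone. -/
theorem sub_mem_closure {u v : A} (hu : IsSelfAdjoint u) (hv : IsSelfAdjoint v)
    (h : ∀ τ : TracialState A, (τ.toLin u).re ≤ (τ.toLin v).re) :
    v - u ∈ closure (cone : Set A) := by
  by_contra hnot
  have hconv : Convex ℝ (cone : Set A) := fun a ha b hb r s hr hs _ =>
    cone_add (cone_smul ha hr) (cone_smul hb hs)
  obtain ⟨f, w, hfr, hfK⟩ := geometric_hahn_banach_point_closed hconv.closure isClosed_closure hnot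
  have hw : w < 0 := by simpa using hfK 0 (subset_closure cone_zero)
  have hfpos : ∀ k ∈ (cone : Set A), 0 ≤ f k := fun k hk => by
    by_contra hlt
    rw [not_le] at hlt
    have h1 := hfK _ (subset_closure (cone_smul hk (div_pos_of_neg_of_neg hw hlt).le))
    rw [map_smul, smul_eq_mul, div_mul_cancel₀ w hlt.ne] at h1
    exact lt_irrefl w h1
  have hneg : f (v - u) < 0 := hfr.trans hw
  have hcomm : ∀ y : A, f (star y * y) = f (y * star y) := fun y => by
    have h1 := hfpos _ ⟨0, 1, ![y], le_rfl, rfl⟩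
    have h2 := hfpos _ ⟨0, 1, ![star y], le_rfl, rfl⟩
    simp at h1 h2
    linarith
  have hnn : ∀ p : A, 0 ≤ p → 0 ≤ f p := fun p hp =>
    hfpos p ⟨p, 0, ![], hp, by simp⟩
  have hbd : ∀ s : A, IsSelfAdjoint s → |f s| ≤ ‖s‖ * f 1 := fun s hs => by
    have h1 := hnn _ (sub_nonneg.2 hs.le_algebraMap_norm_self)
    have h2 := hnn _ (sub_nonneg.2 hs.neg_algebraMap_norm_le_self)
    simp only [map_sub, map_neg, Algebra.algebraMap_eq_smul_one, map_smul, smul_eq_mul] at h1 h2
    rw [abs_le]
    constructor <;> linarith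
  have hone : 0 < f 1 := by
    rcases (hnn 1 zero_le_one).lt_or_eq with h1 | h1
    · exact h1
    · have := hbd _ (hv.sub hu)
      rw [← h1, mul_zero, abs_nonpos_iff] at this
      linarith
  let hh : Module.Dual ℝ A :=
    { toFun := fun y => (2 * f 1)⁻¹ * (f y + f (star y))
      map_add' := fun y z => by simp only [star_add, map_add]; ring
      map_smul' := fun r y => by
        simp only [star_smul, star_trivial, map_smul, smul_eq_mul, RingHom.id_apply]; ring }
  have hreal : ∀ s : A, IsSelfAdjoint s →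
      hh.extendRCLike (𝕜 := ℂ) s = ((f s / f 1 : ℝ) : ℂ) := fun s hs => by
    have h1 : hh s = f s / f 1 := by
      show (2 * f 1)⁻¹ * (f s + f (star s)) = _
      rw [hs.star_eq]
      field_simp
      ring
    have h2 : hh (Complex.I • s) = 0 := by
      show (2 * f 1)⁻¹ * (f (Complex.I • s) + f (star (Complex.I • s))) = 0
      rw [star_smul, hs.star_eq]
      simp
    rw [Module.Dual.extendRCLike_apply, show (RCLike.I : ℂ) = Complex.I from rfl, h1, h2]
    simp
  set L := hh.extendRCLike (𝕜 := ℂ) with hL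
  have hdiag : ∀ y : A, L (star y * y) = L (y * star y) := fun y => by
    rw [hreal _ (IsSelfAdjoint.star_mul_self y), hreal _ (IsSelfAdjoint.mul_star_self y), hcomm]
  have htr : ∀ a b : A, L (star a * b) = L (b * star a) := fun a b => by
    have p1 := hdiag (a + b)
    have p2 := hdiag (a + Complex.I • b)
    simp only [star_add, star_smul, add_mul, mul_add, smul_mul_assoc, mul_smul_comm, smul_smul,
      map_add, map_smul, smul_eq_mul, Complex.star_def, Complex.conj_I] at p1 p2
    linear_combination (norm := (ring_nf; simp only [Complex.I_sq, Complex.I_pow_three]; ring_nf))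
      (1 / 2 : ℂ) * p1 + (-Complex.I / 2) * p2 - ((1 - Complex.I) / 2) * hdiag a -
        ((1 - Complex.I) / 2) * hdiag b
  let τ : TracialState A :=
    { toLin := L
      map_one := by rw [hreal 1 (IsSelfAdjoint.one A), div_self hone.ne', Complex.ofReal_one]
      nonneg := fun y => by
        rw [hreal _ (IsSelfAdjoint.star_mul_self y), Complex.ofReal_re, Complex.ofReal_im]
        exact ⟨div_nonneg (hnn _ (star_mul_self_nonneg y)) hone.le, rfl⟩
      tracial := fun a b => by
        have := htr (star a) b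
        rwa [star_star] at this }
  have hτ := h τ
  change (L u).re ≤ (L v).re at hτ
  rw [hreal u hu, hreal v hv, Complex.ofReal_re, Complex.ofReal_re,
    div_le_div_iff_of_pos_right hone] at hτ
  rw [map_sub] at hneg
  linarith

/-- Inequality of all tracial states gives the decomposition. -/
theorem cp_of_traces {u v : A} (hu : 0 ≤ u) (hv : 0 ≤ v)
    (h : ∀ τ : TracialState A, (τ.toLin u).re ≤ (τ.toLin v).re) : CP u v := by
  intro η hη
  obtain ⟨k, ⟨p, m, y, hp, rfl⟩, hk⟩ := Metric.mem_closure_iff.1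
    (sub_mem_closure (IsSelfAdjoint.of_nonneg hu) (IsSelfAdjoint.of_nonneg hv) h) (η / 4)
    (by positivity)
  set v' := v + (η / 4) • (1 : A) with hv'
  set Y := ∑ i, star (y i) * y i with hY
  set Y' := ∑ i, y i * star (y i) with hY'
  have hv'n : 0 ≤ v' := add_nonneg hv (smul_nonneg (by positivity) zero_le_one)
  have hYn : 0 ≤ Y := Finset.sum_nonneg fun i _ => star_mul_self_nonneg (y i)
  have hY'n : 0 ≤ Y' := Finset.sum_nonneg fun i _ => mul_star_self_nonneg (y i)
  have hle : u + Y ≤ v' + Y' := by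
    have hd : IsSelfAdjoint (v - u) :=
      (IsSelfAdjoint.of_nonneg hv).sub (IsSelfAdjoint.of_nonneg hu)
    have hk' : IsSelfAdjoint (p + ∑ i, (star (y i) * y i - y i * star (y i))) :=
      (IsSelfAdjoint.of_nonneg hp).add (isSelfAdjoint_sum _ fun i _ =>
        (IsSelfAdjoint.star_mul_self _).sub (IsSelfAdjoint.mul_star_self _))
    rw [dist_eq_norm] at hk
    have h1 := le_add_of_norm_sub_le hd hk' hk.le
    have h2 : Y - Y' ≤ v - u + (η / 4) • (1 : A) := by
      refine le_trans ?_ h1
      rw [Finset.sum_sub_distrib]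
      exact le_add_of_nonneg_left hp
    calc u + Y = (Y - Y') + (u + Y') := by abel
      _ ≤ (v - u + (η / 4) • (1 : A)) + (u + Y') := by gcongr
      _ = v' + Y' := by rw [hv']; abel
  have h1 : CP (u + Y) (v' + Y) :=
    (CP.of_le (add_nonneg hu hYn) hle).trans (add_nonneg hv'n hY'n)
      ((CP.of_le hv'n le_rfl).add (CP.swap y))
  have hiter : ∀ n : ℕ, CP ((n : ℝ) • u + Y) ((n : ℝ) • v' + Y) := by
    intro n
    induction n with
    | zero => simpa using CP.of_le hYn le_rfl
    | succ n ih =>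
      have hnu : 0 ≤ (n : ℝ) • u := smul_nonneg n.cast_nonneg hu
      have a1 := (CP.of_le hnu le_rfl).add h1
      have a2 := ih.add (CP.of_le hv'n le_rfl)
      rw [show (n : ℝ) • u + (u + Y) = ((n + 1 : ℕ) : ℝ) • u + Y by push_cast; module,
        show (n : ℝ) • u + (v' + Y) = (n : ℝ) • u + Y + v' by abel] at a1
      rw [show (n : ℝ) • v' + Y + v' = ((n + 1 : ℕ) : ℝ) • v' + Y by push_cast; module] at a2
      exact a1.trans (add_nonneg (add_nonneg hnu hYn) hv'n) a2
  obtain ⟨n, hn⟩ := exists_nat_gt (4 * ‖Y‖ / η)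
  have hn0 : 0 < (n : ℝ) := lt_of_le_of_lt (by positivity) hn
  have hnu : 0 ≤ (n : ℝ) • u := smul_nonneg hn0.le hu
  have hnv : 0 ≤ (n : ℝ) • v' := smul_nonneg hn0.le hv'n
  have h2 : CP ((n : ℝ) • u) ((n : ℝ) • v' + Y) :=
    (CP.of_le hnu (le_add_of_nonneg_right hYn)).trans (add_nonneg hnu hYn) (hiter n)
  have h3 : CP u ((n : ℝ)⁻¹ • ((n : ℝ) • v' + Y)) := by
    simpa [smul_smul, inv_mul_cancel₀ hn0.ne'] using h2.smul (inv_pos.2 hn0)
  obtain ⟨M, x, hx1, hx2⟩ := h3 (η / 4) (by positivity)
  refine ⟨M, x, hx1.trans (by linarith), hx2.trans ?_⟩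
  have hYb : (n : ℝ)⁻¹ • Y ≤ (η / 4) • (1 : A) := by
    have hy1 : Y ≤ algebraMap ℝ A ‖Y‖ := (IsSelfAdjoint.of_nonneg hYn).le_algebraMap_norm_self
    rw [Algebra.algebraMap_eq_smul_one] at hy1
    refine (smul_le_smul_of_nonneg_left hy1 (inv_nonneg.2 hn0.le)).trans ?_
    rw [smul_smul]
    refine smul_one_mono ?_
    rw [div_lt_iff₀ hη] at hn
    rw [inv_mul_le_iff₀ hn0]
    linarith
  rw [smul_add, smul_smul, inv_mul_cancel₀ hn0.ne', one_smul]
  calc v' + (n : ℝ)⁻¹ • Y + (η / 4) • (1 : A) ≤ v' + (η / 4) • (1 : A) + (η / 4) • (1 : A) := by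
        gcongr
    _ = v + (η * (3 / 4)) • (1 : A) := by rw [hv']; module
    _ ≤ _ := by gcongr; linarith

theorem norm_le_of_le_smul_one {a : A} (ha : 0 ≤ a) {r : ℝ} (hr : 0 ≤ r)
    (h : a ≤ r • (1 : A)) : ‖a‖ ≤ r := by
  rw [CStarAlgebra.norm_le_iff_le_algebraMap a hr ha, Algebra.algebraMap_eq_smul_one]
  exact h

theorem re_trace_smul_one (τ : TracialState A) (t : ℝ) : (τ.toLin (t • (1 : A))).re = t := by
  rw [LinearMap.map_smul_of_tower, τ.map_one]
  simp

end Pedersen

open Pedersen

/-- Small traces give a small decomposition. -/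
theorem upper : UpperStmt := by
  intro A _ e he t ht hτ η hη
  have he0 : 0 ≤ e := by obtain ⟨z, rfl⟩ := he; exact star_mul_self_nonneg z
  obtain ⟨m, x, h1, h2⟩ := cp_of_traces (u := e) (v := t • (1 : A)) he0
    (smul_nonneg ht.le zero_le_one) (fun τ => by rw [re_trace_smul_one]; exact (hτ τ).le) η hη
  refine ⟨m, x, h1, ?_⟩
  rw [← add_smul] at h2
  exact norm_le_of_le_smul_one (Finset.sum_nonneg fun i _ => mul_star_self_nonneg (x i))
    (by linarith) h2

/-- Large traces write the unit over a full element. -/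
theorem lower : LowerStmt := by
  intro A _ a ha ha1 hfull δ hδ hτ
  obtain ⟨l, b, hb⟩ := hfull
  have ha0 : 0 ≤ a := by obtain ⟨z, rfl⟩ := ha; exact star_mul_self_nonneg z
  have has : IsSelfAdjoint a := IsSelfAdjoint.of_nonneg ha0
  have hcp : CP (δ • (1 : A)) a := cp_of_traces (smul_nonneg hδ.le zero_le_one) ha0
    fun τ => by rw [re_trace_smul_one]; exact hτ τ
  set M : ℝ := ‖∑ i, (a * b i) * star (a * b i)‖ with hM
  have hM0 : 0 ≤ M := norm_nonneg _
  obtain ⟨η, hη, hη1, hη2⟩ : ∃ η : ℝ, 0 < η ∧ 8 * η ≤ δ ∧ 2 * η * M ≤ 1 := by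
    refine ⟨min (δ / 8) (1 / (2 * (M + 1))), lt_min (by positivity) (by positivity), ?_, ?_⟩
    · linarith [min_le_left (δ / 8) (1 / (2 * (M + 1)))]
    · have h1 := min_le_right (δ / 8) (1 / (2 * (M + 1)))
      rw [le_div_iff₀ (by positivity)] at h1
      have h2 : 0 ≤ min (δ / 8) (1 / (2 * (M + 1))) := le_min (by positivity) (by positivity)
      nlinarith
  obtain ⟨m, x, hx1, hx2⟩ := hcp η hη
  -- a root of `a` inside `a A`, up to `η`
  let kf : ℝ → ℝ := fun r => (√(max r η))⁻¹
  have hkf : Continuous kf :=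
    Continuous.inv₀ (by fun_prop) fun r => (Real.sqrt_pos.2 (lt_max_of_lt_right hη)).ne'
  set k := cfc kf a with hk
  have hks : star k = k := (cfc_predicate kf a).star_eq
  have hsq : ∀ r : ℝ, kf r * kf r = (max r η)⁻¹ := fun r => by
    show (√(max r η))⁻¹ * (√(max r η))⁻¹ = _
    rw [← mul_inv, Real.mul_self_sqrt (le_trans hη.le (le_max_right r η))]
  have hakka : (a * k) * star (a * k) = cfc (fun r => r * kf r * (kf r * r)) a := by
    rw [star_mul, hks, has.star_eq, hk,
      cfc_mul (fun r => r * kf r) (fun r => kf r * r) a (continuous_id.mul hkf).continuousOn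
        (hkf.mul continuous_id).continuousOn,
      cfc_mul (fun r => r) kf a continuousOn_id hkf.continuousOn,
      cfc_mul kf (fun r => r) a hkf.continuousOn continuousOn_id, cfc_id' ℝ a has]
  have hkaak : star (a * k) * (a * k) = cfc (fun r => kf r * r * (r * kf r)) a := by
    rw [star_mul, hks, has.star_eq, hk,
      cfc_mul (fun r => kf r * r) (fun r => r * kf r) a (hkf.mul continuous_id).continuousOn
        (continuous_id.mul hkf).continuousOn,
      cfc_mul (fun r => r) kf a continuousOn_id hkf.continuousOn,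
      cfc_mul kf (fun r => r) a hkf.continuousOn continuousOn_id, cfc_id' ℝ a has]
  have hspec : ∀ r ∈ spectrum ℝ a, 0 ≤ r := fun r hr => spectrum_nonneg_of_nonneg ha0 hr
  have hup : (a * k) * star (a * k) ≤ a := by
    rw [hakka]
    conv_rhs => rw [← cfc_id' ℝ a has]
    refine cfc_mono (fun r hr => ?_)
      (((continuous_id.mul hkf).mul (hkf.mul continuous_id)).continuousOn) continuousOn_id
    have h0 := hspec r hr
    have hpos : 0 < max r η := lt_max_of_lt_right hη
    show r * kf r * (kf r * r) ≤ r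
    rw [show r * kf r * (kf r * r) = r * (r * (kf r * kf r)) by ring, hsq]
    refine mul_le_of_le_one_right h0 ?_
    rw [← div_eq_mul_inv, div_le_one hpos]
    exact le_max_left r η
  have hlow : a ≤ star (a * k) * (a * k) + η • (1 : A) := by
    rw [hkaak, ← Algebra.algebraMap_eq_smul_one, ← cfc_const η a has,
      ← cfc_add (a := a) (fun r => kf r * r * (r * kf r)) (fun _ => η)
        ((hkf.mul continuous_id).mul (continuous_id.mul hkf)).continuousOn continuousOn_const]
    conv_lhs => rw [← cfc_id' ℝ a has]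
    refine cfc_mono (fun r hr => ?_) continuousOn_id
      ((((hkf.mul continuous_id).mul (continuous_id.mul hkf)).add continuous_const).continuousOn)
    have h0 := hspec r hr
    show r ≤ kf r * r * (r * kf r) + η
    rw [show kf r * r * (r * kf r) = r * (r * (kf r * kf r)) by ring, hsq]
    rcases le_total η r with h | h
    · rw [max_eq_left h, mul_inv_cancel₀ (by linarith : r ≠ 0)]
      linarith
    · have : 0 ≤ r * (r * (max r η)⁻¹) := by
        have := lt_max_of_lt_right (b := r) hη
        positivity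
      linarith
  obtain ⟨s, hs0, hs⟩ : ∃ s : ℝ, 0 ≤ s ∧ s * s = 2 * η :=
    ⟨√(2 * η), Real.sqrt_nonneg _, Real.mul_self_sqrt (by positivity)⟩
  let q : Option (Fin l) → A := fun o => o.elim k fun i => s • b i
  have e1 : ∑ o, star (a * q o) * (a * q o) = star (a * k) * (a * k) + (2 * η) • (1 : A) := by
    rw [Fintype.sum_option]
    simp only [q, Option.elim, mul_smul_comm, star_smul, star_trivial, smul_mul_assoc, smul_smul, hs,
      ← Finset.smul_sum, hb]
  have e2 : ∑ o, (a * q o) * star (a * q o) ≤ (2 : ℝ) • (1 : A) := by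
    rw [Fintype.sum_option]
    simp only [q, Option.elim, mul_smul_comm, star_smul, star_trivial, smul_mul_assoc, smul_smul, hs,
      ← Finset.smul_sum]
    have h1 : a ≤ (1 : ℝ) • (1 : A) := by
      refine has.le_algebraMap_norm_self.trans ?_
      rw [← Algebra.algebraMap_eq_smul_one]
      exact algebraMap_mono A ha1
    have h2 : (2 * η) • ∑ i, (a * b i) * star (a * b i) ≤ (1 : ℝ) • (1 : A) := by
      have h3 := (IsSelfAdjoint.of_nonneg (Finset.sum_nonneg (s := Finset.univ) fun i _ =>
        mul_star_self_nonneg (a * b i))).le_algebraMap_norm_self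
      rw [Algebra.algebraMap_eq_smul_one, ← hM] at h3
      refine (smul_le_smul_of_nonneg_left h3 (by positivity)).trans ?_
      rw [smul_smul]
      exact smul_one_mono hη2
    refine (add_le_add (hup.trans h1) h2).trans (le_of_eq ?_)
    module
  have hT : ∑ i, x i * star (x i) ≤ ∑ o, star (a * q o) * (a * q o) := by
    rw [e1]
    calc _ ≤ a + η • (1 : A) := hx2
      _ ≤ (star (a * k) * (a * k) + η • (1 : A)) + η • (1 : A) := by gcongr
      _ = _ := by module
  obtain ⟨z, hz1, hz2⟩ := transfer x (fun o => a * q o) hT η hη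
  obtain ⟨t, ht0, ht⟩ : ∃ t : ℝ, 0 ≤ t ∧ t * t = δ⁻¹ :=
    ⟨√δ⁻¹, Real.sqrt_nonneg _, Real.mul_self_sqrt (by positivity)⟩
  let e := Fintype.equivFin (Option (Fin l) × Fin m)
  let X : Option (Fin l) × Fin m → A := fun p => t • (q p.1 * z p.2)
  have hX : ∀ p, a * X p = t • (a * q p.1 * z p.2) := fun p => by
    simp only [X, mul_smul_comm, mul_assoc]
  refine ⟨_, X ∘ e.symm, ?_, ?_⟩
  · simp only [Function.comp_apply]
    rw [e.symm.sum_comp (fun p => star (a * X p) * (a * X p))]
    simp only [hX, star_smul, star_trivial, smul_mul_smul_comm, ht, ← Finset.smul_sum]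
    set S := ∑ p : Option (Fin l) × Fin m, star (a * q p.1 * z p.2) * (a * q p.1 * z p.2) with hS
    have h1 : ‖S - δ • (1 : A)‖ ≤ 2 * η := by
      refine (norm_sub_le_norm_sub_add_norm_sub S (∑ i, star (x i) * x i) _).trans ?_
      linarith
    have h2 : δ⁻¹ • S - 1 = δ⁻¹ • (S - δ • (1 : A)) := by
      rw [smul_sub, smul_smul, inv_mul_cancel₀ hδ.ne', one_smul]
    rw [h2, norm_smul, Real.norm_eq_abs, abs_of_pos (inv_pos.2 hδ), inv_mul_le_iff₀ hδ]
    linarith
  · simp only [Function.comp_apply]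
    rw [e.symm.sum_comp (fun p => (a * X p) * star (a * X p))]
    simp only [hX, star_smul, star_trivial, smul_mul_smul_comm, ht, ← Finset.smul_sum]
    rw [norm_smul, Real.norm_eq_abs, abs_of_pos (inv_pos.2 hδ)]
    have h1 := norm_le_of_le_smul_one
      (Finset.sum_nonneg fun p _ => mul_star_self_nonneg (a * q p.1 * z p.2)) zero_le_two
      (hz2.trans e2)
    rw [div_eq_inv_mul]
    exact mul_le_mul_of_nonneg_left (h1.trans (by norm_num)) (by positivity)

end

end Vale.P095.Lossy
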