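import Vale.Agent.P095.SI.Defs
import Vale.Agent.P101.ZStab.Pins

/-!
# P095: lossy comparison by tracial states in nuclear algebras with central order zero maps

Plan (scratch/P095/NOTE3.md on origin/helper3): no quasitraces.

* `MatStmt` (Lossy/Free, Lossy/Mat): a free group identity moved to matrices by finite quotients.
* `PullStmt` (Lossy/Pull): its transfer to a nuclear algebra by completely positive approximation.
* `UpperStmt`, `LowerStmt` (Lossy/Pedersen): Cuntz–Pedersen by Hahn–Banach.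
* `UnperfStmt` (Lossy/Unperf): lossy almost unperforation from central order zero maps.
* `AssembleStmt` (Lossy/Main): lossy comparison.
-/

open scoped Kronecker Matrix.Norms.L2Operator

namespace Vale.P095.Lossy

open Vale.P095.SI Vale.P095.Tracial

noncomputable section

/-- The coefficient `⟨G i, G j⟩ - δ i j` of a family of matrices. -/
def gramDefect {R d m : ℕ} (G : Fin m → Matrix (Fin R) (Fin d) ℂ) (i j : Fin m) :
    Matrix (Fin d) (Fin d) ℂ :=
  (G i).conjTranspose * G j - if i = j then 1 else 0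

/-- Finitely many matrices with rows almost negligible against columns almost preserve the square
of every coefficient family (module `Lossy/Mat`). -/
def MatStmt : Prop :=
  ∀ (N r m : ℕ) (z : Fin m → Matrix (Fin r) (Fin N) ℂ) (c : ℝ) (k q : ℕ), 0 < k → 0 < q →
    0 ≤ c → c * k ≤ q → ‖∑ i, (z i).conjTranspose * z i‖ ≤ 1 →
    ‖∑ i, z i * (z i).conjTranspose‖ ≤ c →
    ∃ (D d : ℕ) (G : Fin m → Matrix (Fin (q * D)) (Fin d) ℂ), 0 < D ∧ k * D ≤ 2 * d ∧
      (∀ i, ‖G i‖ ≤ k) ∧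
      ‖∑ i, ∑ j, gramDefect G i j ⊗ₖ ((z i).conjTranspose * z j)‖ ≤ 8 * √(c * k / q)

variable {A : Type*} [CStarAlgebra A]

attribute [local instance] CStarAlgebra.spectralOrder CStarAlgebra.spectralOrderedRing

/-- The same element over `A`. -/
def pulled {R d m : ℕ} (G : Fin m → Matrix (Fin R) (Fin d) ℂ) (x : Fin m → A) :
    CStarMatrix (Fin d) (Fin d) A :=
  CStarMatrix.ofMatrix fun s t => ∑ i, ∑ j, gramDefect G i j s t • (star (x i) * x j)

/-- `K` copies of `e` are Cuntz below `j` copies of `a`. -/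
def CopiesLE (K : ℕ) (e : A) (j : ℕ) (a : A) : Prop :=
  ∀ ε : ℝ, 0 < ε → ∃ R : Fin j → Fin K → A, ∀ s t,
    ‖(∑ l, star (R l s) * a * R l t) - (if s = t then e else 0)‖ ≤ ε

/-- Transfer to nuclear algebras (module `Lossy/Pull`). -/
def PullStmt : Prop :=
  MatStmt → ∀ (A : Type) [CStarAlgebra A], HasCPAP A →
    ∀ (m : ℕ) (x : Fin m → A) (c : ℝ) (k q : ℕ), 0 < k → 0 < q → 0 ≤ c → c * k ≤ q →
      ‖∑ i, star (x i) * x i‖ ≤ 1 → ‖∑ i, x i * star (x i)‖ ≤ c → ∀ θ : ℝ, 0 < θ →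
      ∃ (D d : ℕ) (G : Fin m → Matrix (Fin (q * D)) (Fin d) ℂ), 0 < D ∧ k * D ≤ 2 * d ∧
        ‖pulled G x‖ ≤ 8 * √(c * k / q) + θ

/-- Small traces give a small decomposition (module `Lossy/Pedersen`). -/
def UpperStmt : Prop :=
  ∀ (A : Type) [CStarAlgebra A] (e : A), IsPos e → ∀ t : ℝ, 0 < t →
    (∀ τ : TracialState A, (τ.toLin e).re < t) → ∀ η : ℝ, 0 < η →
    ∃ (m : ℕ) (x : Fin m → A), ‖(∑ i, star (x i) * x i) - e‖ ≤ η ∧
      ‖∑ i, x i * star (x i)‖ ≤ t + η

/-- Large traces write the unit over a full element (module `Lossy/Pedersen`). -/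
def LowerStmt : Prop :=
  ∀ (A : Type) [CStarAlgebra A] (a : A), IsPos a → ‖a‖ ≤ 1 →
    (∃ (l : ℕ) (b : Fin l → A), ∑ i, star (a * b i) * (a * b i) = 1) → ∀ δ : ℝ, 0 < δ →
    (∀ τ : TracialState A, δ ≤ (τ.toLin a).re) →
    ∃ (m : ℕ) (x : Fin m → A), ‖(∑ i, star (a * x i) * (a * x i)) - 1‖ ≤ 1 / 4 ∧
      ‖∑ i, (a * x i) * star (a * x i)‖ ≤ 8 / δ

/-- Lossy almost unperforation (module `Lossy/Unperf`). -/
def UnperfStmt : Prop :=
  ∀ (A : Type) [CStarAlgebra A] (ω : Ultrafilter ℕ), (ω : Filter ℕ) ≤ Filter.cofinite →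
    (∀ k : ℕ, 1 ≤ k → ∃ (s : Fin (2 ^ k) → P101.FOmega A ω) (v : P101.FOmega A ω),
      P101.ZS.RWRel (2 ^ k) (Nat.two_pow_pos k) s v) →
    ∀ e a : A, IsPos e → IsPos a → ∀ K j : ℕ, 0 < K → 4 * j ≤ K → CopiesLE K e j a → CuntzLE e a

/-- Lossy comparison (module `Lossy/Main`). -/
def AssembleStmt : Prop :=
  MatStmt → PullStmt → UpperStmt → LowerStmt → UnperfStmt →
    ∀ (A : Type) [CStarAlgebra A] [TopologicalSpace.SeparableSpace A] [Nontrivial A]
      [IsSimpleRing A] (ω : Ultrafilter ℕ), (ω : Filter ℕ) ≤ Filter.cofinite → HasCPAP A →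
      Nonempty (TracialState A) →
      P101.NoCharacters (P101.FOmega A ω) → HasLossyComparison A

end

end Vale.P095.Lossy
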